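import Vale.Agent.P266.Cone.Grading
import Vale.Agent.P266.Normalization

/-!
# P266: the tangent cone at a maximal ideal

The quotient of the Rees algebra by the maximal ideal, its classes and grading, and the operators
induced by derivations.
-/

noncomputable section

namespace Vale.Agent.P266

open Polynomial

variable {A : Type*} [CommRing A] [Algebra ℂ A] (m : Ideal A)

/-- The tangent cone. -/
abbrev Cone : Type _ := ↥(reesAlgebra m) ⧸ m.map (algebraMap A ↥(reesAlgebra m))

omit [Algebra ℂ A] in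
lemma mem_coneIdeal (p : ↥(reesAlgebra m)) :
    p ∈ m.map (algebraMap A ↥(reesAlgebra m)) ↔ ∀ n, (p : A[X]).coeff n ∈ m ^ (n + 1) := by
  constructor
  · intro hp
    induction hp using Submodule.span_induction with
    | mem q hq =>
      obtain ⟨a, ha, rfl⟩ := hq
      intro n
      change (Polynomial.C a).coeff n ∈ _
      rw [coeff_C]
      split_ifs with h
      · subst h
        simpa using ha
      · exact zero_mem _
    | zero => intro n; simp
    | add q r _ _ hq hr => intro n; simpa using add_mem (hq n) (hr n)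
    | smul c q _ hq =>
      intro n
      simp only [smul_eq_mul, Subalgebra.coe_mul, coeff_mul]
      refine Ideal.sum_mem _ ?_
      rintro ⟨i, j⟩ hij
      rw [Finset.HasAntidiagonal.mem_antidiagonal] at hij
      rw [← hij, add_assoc, pow_add]
      exact Ideal.mul_mem_mul (c.2 i) (hq j)
  · intro hp
    have hmon : ∀ (n : ℕ) (z : A), z ∈ m ^ (n + 1) → ∃ h : monomial n z ∈ reesAlgebra m,
        (⟨monomial n z, h⟩ : ↥(reesAlgebra m)) ∈ m.map (algebraMap A ↥(reesAlgebra m)) := by
      intro n z hz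
      rw [pow_succ'] at hz
      refine Submodule.smul_induction_on hz (fun a ha c hc => ?_) (fun a b ha hb => ?_)
      · refine ⟨reesAlgebra.monomial_mem.2 (Ideal.mul_mem_left _ a hc), ?_⟩
        have : (⟨monomial n (a • c), reesAlgebra.monomial_mem.2 (Ideal.mul_mem_left _ a hc)⟩ :
            ↥(reesAlgebra m)) = algebraMap A ↥(reesAlgebra m) a *
              ⟨monomial n c, reesAlgebra.monomial_mem.2 hc⟩ := by
          refine Subtype.ext ?_
          show monomial n (a • c) = Polynomial.C a * monomial n c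
          rw [C_mul_monomial, smul_eq_mul]
        rw [this]
        exact Ideal.mul_mem_right _ _ (Ideal.mem_map_of_mem _ ha)
      · obtain ⟨h1, h1'⟩ := ha
        obtain ⟨h2, h2'⟩ := hb
        refine ⟨by rw [map_add]; exact add_mem h1 h2, ?_⟩
        convert add_mem h1' h2' using 1
        exact Subtype.ext (map_add (monomial n) a b)
    choose hmem hmem' using fun n => hmon n _ (hp n)
    have : p = ∑ n ∈ (p : A[X]).support, ⟨monomial n ((p : A[X]).coeff n), hmem n⟩ := by
      refine Subtype.ext ?_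
      rw [AddSubmonoidClass.coe_finsetSum]
      exact (p : A[X]).as_sum_support
    rw [this]
    exact sum_mem fun n _ => hmem' n

open scoped Classical in
/-- The class of an element of `m ^ n` in degree `n`. -/
def cl (n : ℕ) (z : A) : Cone m :=
  if h : z ∈ m ^ n then Ideal.Quotient.mk _ ⟨monomial n z, reesAlgebra.monomial_mem.2 h⟩ else 0

variable {m}

omit [Algebra ℂ A] in
lemma cl_def {n : ℕ} {z : A} (h : z ∈ m ^ n) :
    cl m n z = Ideal.Quotient.mk _ ⟨monomial n z, reesAlgebra.monomial_mem.2 h⟩ := dif_pos h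

omit [Algebra ℂ A] in
lemma cl_eq_zero_iff {n : ℕ} {z : A} (h : z ∈ m ^ n) : cl m n z = 0 ↔ z ∈ m ^ (n + 1) := by
  rw [cl_def h, Ideal.Quotient.eq_zero_iff_mem, mem_coneIdeal]
  refine ⟨fun hz => by simpa using hz n, fun hz i => ?_⟩
  show (monomial n z).coeff i ∈ _
  rw [coeff_monomial]
  split_ifs with hi
  · exact hi ▸ hz
  · exact zero_mem _

omit [Algebra ℂ A] in
lemma cl_zero (n : ℕ) : cl m n (0 : A) = 0 :=
  (cl_eq_zero_iff (zero_mem _)).2 (zero_mem _)

omit [Algebra ℂ A] in
lemma cl_add {n : ℕ} {z w : A} (hz : z ∈ m ^ n) (hw : w ∈ m ^ n) :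
    cl m n (z + w) = cl m n z + cl m n w := by
  rw [cl_def hz, cl_def hw, cl_def (add_mem hz hw), ← map_add]
  exact congrArg _ (Subtype.ext (map_add (monomial n) z w))

omit [Algebra ℂ A] in
lemma cl_eq_iff {n : ℕ} {z w : A} (hz : z ∈ m ^ n) (hw : w ∈ m ^ n) :
    cl m n z = cl m n w ↔ z - w ∈ m ^ (n + 1) := by
  have h : cl m n z = cl m n (z - w) + cl m n w := by
    rw [← cl_add (sub_mem hz hw) hw, sub_add_cancel]
  rw [h, add_eq_right, cl_eq_zero_iff (sub_mem hz hw)]

omit [Algebra ℂ A] in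
lemma cl_mul {n k : ℕ} {z w : A} (hz : z ∈ m ^ n) (hw : w ∈ m ^ k) :
    cl m n z * cl m k w = cl m (n + k) (z * w) := by
  rw [cl_def hz, cl_def hw, cl_def (by rw [pow_add]; exact Ideal.mul_mem_mul hz hw), ← map_mul]
  exact congrArg _ (Subtype.ext (monomial_mul_monomial n k z w))

omit [Algebra ℂ A] in
lemma cl_sum {n : ℕ} {ι : Type*} (s : Finset ι) (f : ι → A) (hf : ∀ i ∈ s, f i ∈ m ^ n) :
    cl m n (∑ i ∈ s, f i) = ∑ i ∈ s, cl m n (f i) := by
  classical
  induction s using Finset.induction_on with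
  | empty => simp [cl_zero]
  | insert i s hi ih =>
    rw [Finset.sum_insert hi, Finset.sum_insert hi,
      cl_add (hf i (Finset.mem_insert_self i s))
        (sum_mem fun j hj => hf j (Finset.mem_insert_of_mem hj)),
      ih fun j hj => hf j (Finset.mem_insert_of_mem hj)]

lemma cl_smul {n : ℕ} {z : A} (hz : z ∈ m ^ n) (c : ℂ) : cl m n (c • z) = c • cl m n z := by
  have hc : c • z ∈ m ^ n := by rw [Algebra.smul_def]; exact Ideal.mul_mem_left _ _ hz
  rw [cl_def hz, cl_def hc]
  exact (congrArg (Ideal.Quotient.mkₐ ℂ (m.map (algebraMap A ↥(reesAlgebra m))))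
    (Subtype.ext (smul_monomial c n z).symm)).trans
      (map_smul (Ideal.Quotient.mkₐ ℂ (m.map (algebraMap A ↥(reesAlgebra m)))) c _)

omit [Algebra ℂ A] in
lemma eq_sum_cl (p : ↥(reesAlgebra m)) :
    Ideal.Quotient.mk (m.map (algebraMap A ↥(reesAlgebra m))) p =
      ∑ n ∈ Finset.range ((p : A[X]).natDegree + 1), cl m n ((p : A[X]).coeff n) := by
  rw [Finset.sum_congr rfl fun n _ => cl_def (p.2 n), ← map_sum]
  refine congrArg _ (Subtype.ext ?_)
  rw [AddSubmonoidClass.coe_finsetSum]
  exact (p : A[X]).as_sum_range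

omit [Algebra ℂ A] in
lemma cone_induction {P : Cone m → Prop} (x : Cone m) (h0 : P 0)
    (ha : ∀ a b, P a → P b → P (a + b)) (hc : ∀ n z, z ∈ m ^ n → P (cl m n z)) : P x := by
  obtain ⟨p, rfl⟩ := Ideal.Quotient.mk_surjective x
  rw [eq_sum_cl]
  exact Finset.sum_induction _ P ha h0 fun n _ => hc n _ (p.2 n)

variable (m)

/-- A linear operator given on each degree by a linear map of `A`, shifting degrees. -/
def coneOp (T : ℕ → A →ₗ[ℂ] A) (a b : ℕ)
    (hT : ∀ n, b ≤ n + a → ∀ z ∈ m ^ n, T n z ∈ m ^ (n + a - b))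
    (hT' : ∀ n, b ≤ n + a → ∀ z ∈ m ^ (n + 1), T n z ∈ m ^ (n + a - b + 1)) :
    Cone m →ₗ[ℂ] Cone m := by
  let F : A[X] →ₗ[ℂ] A[X] :=
    { toFun := fun p => p.sum fun n c => if b ≤ n + a then monomial (n + a - b) (T n c) else 0
      map_add' := fun p q => by
        refine Polynomial.sum_add_index p q _ (fun n => by simp) fun n c d => ?_
        split_ifs <;> simp
      map_smul' := fun r p => by
        show (r • p).sum (fun n c => if b ≤ n + a then monomial (n + a - b) (T n c) else 0) = _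
        rw [Polynomial.sum_smul_index' p r _ fun n => by simp]
        simp only [RingHom.id_apply, Polynomial.sum_def, Finset.smul_sum]
        refine Finset.sum_congr rfl fun n _ => ?_
        split_ifs
        · rw [map_smul, smul_monomial]
        · rw [smul_zero] }
  have hF : ∀ (p : A[X]) (j : ℕ), (F p).coeff j = ∑ n ∈ p.support,
      if b ≤ n + a ∧ n + a - b = j then T n (p.coeff n) else 0 := fun p j => by
    simp only [F, LinearMap.coe_mk, AddHom.coe_mk, Polynomial.sum_def, finsetSum_coeff]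
    refine Finset.sum_congr rfl fun n _ => ?_
    by_cases h1 : b ≤ n + a
    · rw [if_pos h1, coeff_monomial]
      by_cases h2 : n + a - b = j
      · rw [if_pos h2, if_pos ⟨h1, h2⟩]
      · rw [if_neg h2, if_neg fun h => h2 h.2]
    · rw [if_neg h1, if_neg fun h => h1 h.1, coeff_zero]
  have hrees : ∀ p ∈ reesAlgebra m, F p ∈ reesAlgebra m := fun p hp j => by
    rw [hF]
    refine sum_mem fun n _ => ?_
    split_ifs with h
    · exact h.2 ▸ hT n h.1 _ (hp n)
    · exact zero_mem _
  let g : ↥(reesAlgebra m) →ₗ[ℂ] ↥(reesAlgebra m) :=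
    { toFun := fun p => ⟨F p, hrees _ p.2⟩
      map_add' := fun p q => Subtype.ext (F.map_add p q)
      map_smul' := fun r p => Subtype.ext (F.map_smul r p) }
  let f : ↥(reesAlgebra m) →ₗ[ℂ] Cone m :=
    (Ideal.Quotient.mkₐ ℂ _).toLinearMap.comp g
  refine Submodule.liftQ ((m.map (algebraMap A ↥(reesAlgebra m))).restrictScalars ℂ) f ?_ |>.comp
    (Submodule.Quotient.restrictScalarsEquiv ℂ
      (m.map (algebraMap A ↥(reesAlgebra m)))).symm.toLinearMap
  intro p hp
  rw [LinearMap.mem_ker]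
  show Ideal.Quotient.mk _ _ = 0
  rw [Ideal.Quotient.eq_zero_iff_mem, mem_coneIdeal]
  intro j
  show (F p).coeff j ∈ _
  rw [hF]
  refine sum_mem fun n _ => ?_
  split_ifs with h
  · exact h.2 ▸ hT' n h.1 _ ((mem_coneIdeal m p).1 hp n)
  · exact zero_mem _

lemma coneOp_cl (T : ℕ → A →ₗ[ℂ] A) (a b : ℕ)
    (hT : ∀ n, b ≤ n + a → ∀ z ∈ m ^ n, T n z ∈ m ^ (n + a - b))
    (hT' : ∀ n, b ≤ n + a → ∀ z ∈ m ^ (n + 1), T n z ∈ m ^ (n + a - b + 1)) (n : ℕ) {z : A}
    (hz : z ∈ m ^ n) : coneOp m T a b hT hT' (cl m n z) =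
      if b ≤ n + a then cl m (n + a - b) (T n z) else 0 := by
  rw [cl_def hz]
  show Ideal.Quotient.mk (m.map (algebraMap A ↥(reesAlgebra m))) _ = _
  split_ifs with h
  · rw [cl_def (hT n h z hz)]
    refine congrArg _ (Subtype.ext ?_)
    show Polynomial.sum (monomial n z)
      (fun j c => if b ≤ j + a then monomial (j + a - b) (T j c) else 0) = _
    rw [Polynomial.sum_monomial_index z _ (by simp), if_pos h]
  · rw [← (Ideal.Quotient.mk (m.map (algebraMap A ↥(reesAlgebra m)))).map_zero]
    refine congrArg _ (Subtype.ext ?_)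
    show Polynomial.sum (monomial n z)
      (fun j c => if b ≤ j + a then monomial (j + a - b) (T j c) else 0) = _
    rw [Polynomial.sum_monomial_index z _ (by simp), if_neg h]
    rfl

/-- Projection to degree `n`. -/
def coneProj (n : ℕ) : Cone m →ₗ[ℂ] Cone m :=
  coneOp m (fun j => if j = n then LinearMap.id else 0) 0 0
    (fun j _ z hz => by
      split_ifs
      · simpa using hz
      · simp)
    (fun j _ z hz => by
      split_ifs
      · simpa using hz
      · simp)

lemma coneProj_cl (n j : ℕ) {z : A} (hz : z ∈ m ^ j) :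
    coneProj m n (cl m j z) = if n = j then cl m j z else 0 := by
  rw [coneProj, coneOp_cl m _ _ _ _ _ j hz, if_pos (Nat.zero_le _), Nat.add_zero, Nat.sub_zero]
  by_cases h : n = j
  · subst h
    simp
  · rw [if_neg h, if_neg (Ne.symm h)]
    exact cl_zero j

/-- The degree `n` piece. -/
def conePiece (n : ℕ) : Submodule ℂ (Cone m) where
  carrier := {x | ∃ z ∈ m ^ n, cl m n z = x}
  add_mem' := by
    rintro _ _ ⟨z, hz, rfl⟩ ⟨w, hw, rfl⟩
    exact ⟨z + w, add_mem hz hw, cl_add hz hw⟩
  zero_mem' := ⟨0, zero_mem _, cl_zero n⟩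
  smul_mem' := by
    rintro c _ ⟨z, hz, rfl⟩
    exact ⟨c • z, by rw [Algebra.smul_def]; exact Ideal.mul_mem_left _ _ hz, cl_smul hz c⟩

variable [Algebra.FiniteType ℂ A] [m.IsMaximal]

/-- The grading of the tangent cone. -/
def coneGrading : Grading (Cone m) where
  piece := conePiece m
  pr := coneProj m
  pr_mem n x := by
    induction x using cone_induction with
    | h0 => simp
    | ha a b ha hb => rw [map_add]; exact add_mem ha hb
    | hc j z hz =>
      rw [coneProj_cl m n j hz]
      split_ifs with h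
      · subst h
        exact ⟨z, hz, rfl⟩
      · exact zero_mem _
  pr_of_mem := by
    rintro n j _ ⟨z, hz, rfl⟩
    exact coneProj_cl m n j hz
  exists_eq_sum x := by
    obtain ⟨p, rfl⟩ := Ideal.Quotient.mk_surjective x
    refine ⟨(p : A[X]).natDegree + 1, ?_⟩
    conv_lhs => rw [eq_sum_cl]
    refine Finset.sum_congr rfl fun i hi => ?_
    rw [eq_sum_cl, map_sum, Finset.sum_eq_single i]
    · rw [coneProj_cl m i i (p.2 i), if_pos rfl]
    · intro j _ hj
      rw [coneProj_cl m i j (p.2 j), if_neg (Ne.symm hj)]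
    · exact fun h => absurd hi h
  mul_mem := by
    rintro i j _ _ ⟨z, hz, rfl⟩ ⟨w, hw, rfl⟩
    exact ⟨z * w, by rw [pow_add]; exact Ideal.mul_mem_mul hz hw, (cl_mul hz hw).symm⟩
  zero_eq := by
    rintro _ ⟨z, hz, rfl⟩
    obtain ⟨c, hc⟩ := exists_scalar m z
    refine ⟨c, ?_⟩
    rw [(cl_eq_iff hz (by simp) : cl m 0 z = cl m 0 (algebraMap ℂ A c) ↔ _).2 (by simpa using hc),
      cl_def (by simp : algebraMap ℂ A c ∈ m ^ 0)]
    rw [IsScalarTower.algebraMap_apply ℂ ↥(reesAlgebra m) (Cone m)]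
    exact congrArg _ (Subtype.ext (by simp [← Polynomial.C_mul_X_pow_eq_monomial]))
  one_mem := ⟨1, by simp, by
    rw [cl_def (by simp : (1 : A) ∈ m ^ 0)]
    exact (congrArg _ (Subtype.ext (by simp))).trans (map_one _)⟩

end Vale.Agent.P266
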