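import Vale.Agent.P266.Key

/-!
# P266: determinants of derivations times elements of the inverse different

For a normal finite extension of a polynomial ring in two variables, the determinant of two
derivations times an element with integral traces is integral.
-/

noncomputable section

namespace Vale.Agent.P266

open Polynomial in
/-- The chain rule for a derivation on polynomials in the coordinates. -/
lemma der_chain {d : ℕ} {G : Type*} [CommRing G] [Algebra ℂ G] [Algebra (Pol d) G]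
    [IsScalarTower ℂ (Pol d) G] (θ : Derivation ℂ G G) (p : Pol d) :
    θ (algebraMap (Pol d) G p) = ∑ l, algebraMap (Pol d) G (MvPolynomial.pderiv l p) *
      θ (algebraMap (Pol d) G (MvPolynomial.X l)) := by
  classical
  induction p using MvPolynomial.induction_on with
  | C c =>
    rw [← MvPolynomial.algebraMap_eq, ← IsScalarTower.algebraMap_apply, θ.map_algebraMap]
    simp [MvPolynomial.algebraMap_eq]
  | add p q hp hq =>
    simp only [map_add, add_mul, Finset.sum_add_distrib]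
    rw [hp, hq]
  | mul_X p i hp =>
    rw [map_mul, θ.leibniz, hp]
    simp only [smul_eq_mul, Derivation.leibniz, map_add, map_mul, add_mul, Finset.sum_add_distrib,
      Finset.mul_sum, MvPolynomial.pderiv_X]
    congr 1
    · rw [Finset.sum_eq_single i]
      · simp
      · intro b _ hb
        simp [Pi.single_eq_of_ne (Ne.symm hb)]
      · simp
    · exact Finset.sum_congr rfl fun _ _ ↦ by ring

section

variable {d : ℕ} {K : Type*} [Field K] [Algebra (Pol d) K] {L : Type*} [Field L]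
  [Algebra (Pol d) L] [IsFractionRing (Pol d) L] [Algebra L K] [IsScalarTower (Pol d) L K]
  [FiniteDimensional L K] [Algebra.IsSeparable L K]

omit [IsFractionRing (Pol d) L] in
/-- An element congruent to a scalar outside a prime at that prime and to zero at the others over
the same prime has trace outside that prime. -/
lemma trace_not_mem' {I₀ : Ideal (Pol d)} [I₀.IsPrime]
    (hchar : ∀ n : ℕ, (n : Pol d) ∈ I₀ → n = 0)
    (P : Ideal (integralClosure (Pol d) K)) [P.IsPrime]
    (hP : P.comap (algebraMap (Pol d) (integralClosure (Pol d) K)) = I₀)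
    (H : integralClosure (Pol d) K) (q : Pol d)
    (hHq : H - algebraMap (Pol d) (integralClosure (Pol d) K) q ∈ P)
    (hH0 : ∀ y ∈ I₀.primesOver (integralClosure (Pol d) K), y ≠ P → H ∈ y)
    (hq : q ∉ I₀) (p : Pol d) (hp : p ∈ I₀)
    (hTrH : algebraMap (Pol d) L p = Algebra.trace L K (H : K)) : False := by
  classical
  let B := integralClosure (Pol d) K
  let Ω := AlgebraicClosure L
  let O := integralClosure (Pol d) Ω
  have hσint : ∀ (σ : K →ₐ[L] Ω) (b : B), IsIntegral (Pol d) (σ (algebraMap B K b)) := fun σ b ↦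
    b.2.map (σ.restrictScalars (Pol d))
  let σB : (K →ₐ[L] Ω) → B →+* O := fun σ ↦
    { toFun := fun b ↦ ⟨σ (algebraMap B K b), hσint σ b⟩
      map_one' := Subtype.ext (by simp)
      map_mul' := fun x y ↦ Subtype.ext (by simp)
      map_zero' := Subtype.ext (by simp)
      map_add' := fun x y ↦ Subtype.ext (by simp) }
  have hσpol : ∀ (σ : K →ₐ[L] Ω) (r : Pol d),
      σB σ (algebraMap (Pol d) B r) = algebraMap (Pol d) O r := fun σ r ↦ Subtype.ext <| by
    change σ (algebraMap B K (algebraMap (Pol d) B r)) = algebraMap (Pol d) Ω r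
    rw [← IsScalarTower.algebraMap_apply]
    exact (σ.restrictScalars (Pol d)).commutes r
  obtain ⟨σ₀⟩ : Nonempty (K →ₐ[L] Ω) := ⟨IsAlgClosed.lift⟩
  let : Algebra B O := (σB σ₀).toAlgebra
  have : IsScalarTower (Pol d) B O := IsScalarTower.of_algebraMap_eq fun x ↦ (hσpol σ₀ x).symm
  have : Algebra.IsIntegral B O := Algebra.IsIntegral.tower_top (Pol d)
  have hker₀ : RingHom.ker (algebraMap B O) = ⊥ := by
    rw [← RingHom.injective_iff_ker_eq_bot]
    intro x y hxy
    exact Subtype.ext (σ₀.injective (congrArg Subtype.val hxy))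
  obtain ⟨Q, hQprime, hQ⟩ := Ideal.exists_ideal_over_prime_of_isIntegral_of_isDomain
    (S := O) P (hker₀ ▸ bot_le)
  have hQpol : Q.comap (algebraMap (Pol d) O) = I₀ := by
    rw [IsScalarTower.algebraMap_eq (Pol d) B O, ← Ideal.comap_comap, hQ, hP]
  have hval : ∀ σ : K →ₐ[L] Ω, σB σ H ∈ Q ∨ σB σ H - algebraMap (Pol d) O q ∈ Q := by
    intro σ
    have hy : Q.comap (σB σ) ∈ I₀.primesOver B := by
      refine ⟨Ideal.comap_isPrime _ Q, (Ideal.liesOver_iff _ _).mpr ?_⟩
      rw [Ideal.under, Ideal.comap_comap, ← hQpol]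
      congr 1
      exact RingHom.ext fun x ↦ (hσpol σ x).symm
    by_cases hyP : Q.comap (σB σ) = P
    · right
      have : H - algebraMap (Pol d) B q ∈ Q.comap (σB σ) := hyP.symm ▸ hHq
      rwa [Ideal.mem_comap, map_sub, hσpol] at this
    · exact Or.inl (hH0 _ hy hyP)
  have hσ₀ : σB σ₀ H - algebraMap (Pol d) O q ∈ Q := by
    have : H - algebraMap (Pol d) B q ∈ Q.comap (algebraMap B O) := hQ.symm ▸ hHq
    rw [Ideal.mem_comap, map_sub, ← IsScalarTower.algebraMap_apply] at this
    exact this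
  set ones := Finset.univ.filter fun σ : K →ₐ[L] Ω ↦ σB σ H - algebraMap (Pol d) O q ∈ Q
  have hdiff : (∑ σ, σB σ H) - (ones.card : O) * algebraMap (Pol d) O q ∈ Q := by
    rw [← Finset.sum_filter_add_sum_filter_not Finset.univ
      (fun σ : K →ₐ[L] Ω ↦ σB σ H - algebraMap (Pol d) O q ∈ Q),
      show (ones.card : O) * algebraMap (Pol d) O q = ∑ σ ∈ ones, algebraMap (Pol d) O q by simp,
      add_sub_right_comm, ← Finset.sum_sub_distrib]
    refine Q.add_mem (Q.sum_mem fun σ hσ ↦ (Finset.mem_filter.mp hσ).2) (Q.sum_mem fun σ hσ ↦ ?_)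
    exact (hval σ).resolve_right (Finset.mem_filter.mp hσ).2
  have hsumQ : (∑ σ, σB σ H) ∈ Q := by
    have hpol : (∑ σ, σB σ H) = algebraMap (Pol d) O p := by
      apply Subtype.ext
      push_cast
      change ∑ σ : K →ₐ[L] Ω, σ (H : K) = algebraMap (Pol d) Ω p
      rw [← trace_eq_sum_embeddings Ω, ← hTrH, ← IsScalarTower.algebraMap_apply]
    rw [hpol]
    rw [← hQpol] at hp
    exact hp
  have hcard : ((ones.card : Pol d)) * q ∈ I₀ := by
    rw [← hQpol, Ideal.mem_comap, map_mul, map_natCast]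
    have h' := Q.sub_mem hsumQ hdiff
    rw [sub_sub_cancel] at h'
    exact h'
  have hc0 : ones.card = 0 := hchar _ ((‹I₀.IsPrime›.mem_or_mem hcard).resolve_right hq)
  exact (Finset.card_eq_zero.mp hc0 ▸ Finset.notMem_empty σ₀)
    (Finset.mem_filter.mpr ⟨Finset.mem_univ _, hσ₀⟩)

end

section

variable {G : Type*} [CommRing G] [IsDomain G] [Algebra ℂ G] [Algebra (Pol 2) G]
  [IsScalarTower ℂ (Pol 2) G] [Module.Finite (Pol 2) G] [FaithfulSMul (Pol 2) G]
  [IsIntegrallyClosed G]
  {K : Type*} [Field K] [Algebra G K] [IsFractionRing G K] [Algebra (Pol 2) K]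
  [IsScalarTower (Pol 2) G K] {L : Type*} [Field L] [Algebra (Pol 2) L] [IsFractionRing (Pol 2) L]
  [Algebra L K] [IsScalarTower (Pol 2) L K] [FiniteDimensional L K] [Algebra.IsSeparable L K]

/-- The value of two derivations on the coordinates. -/
def detDer (θ η : Derivation ℂ G G) : G :=
  θ (algebraMap (Pol 2) G (MvPolynomial.X 0)) * η (algebraMap (Pol 2) G (MvPolynomial.X 1)) -
    θ (algebraMap (Pol 2) G (MvPolynomial.X 1)) * η (algebraMap (Pol 2) G (MvPolynomial.X 0))

omit [IsDomain G] [IsIntegrallyClosed G] [FaithfulSMul (Pol 2) G] [Module.Finite (Pol 2) G] in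
lemma pderiv_mul_detDer (θ η : Derivation ℂ G G) (π : Pol 2) :
    algebraMap (Pol 2) G (MvPolynomial.pderiv 0 π) * detDer θ η =
        θ (algebraMap (Pol 2) G π) * η (algebraMap (Pol 2) G (MvPolynomial.X 1)) -
          η (algebraMap (Pol 2) G π) * θ (algebraMap (Pol 2) G (MvPolynomial.X 1)) ∧
      algebraMap (Pol 2) G (MvPolynomial.pderiv 1 π) * detDer θ η =
        η (algebraMap (Pol 2) G π) * θ (algebraMap (Pol 2) G (MvPolynomial.X 0)) -
          θ (algebraMap (Pol 2) G π) * η (algebraMap (Pol 2) G (MvPolynomial.X 0)) := by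
  rw [der_chain θ π, der_chain η π]
  simp only [Fin.sum_univ_two, detDer]
  constructor <;> ring

omit [IsDomain G] [IsScalarTower ℂ (Pol 2) G] [FaithfulSMul (Pol 2) G] in
/-- Derivatives of a prime of the base are divisible by the ramification power less one. -/
lemma exists_div_der [IsFractionRing (integralClosure (Pol 2) K) K]
    (P : Ideal (integralClosure (Pol 2) K)) [P.IsPrime] (π : Pol 2) {ϖ u : K}
    {e : ℕ} (hϖV : ϖ ∈ locRing K P) (hu : u ∈ locRing K P)
    (hπu : algebraMap (Pol 2) K π = u * ϖ ^ (e + 1)) (δ : Derivation ℂ G G) :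
    ∃ v ∈ locRing K P, algebraMap G K (δ (algebraMap (Pol 2) G π)) = v * ϖ ^ e := by
  classical
  let B := integralClosure (Pol 2) K
  let V := locRing K P
  have hGB : ∀ b : B, ∃ g : G, algebraMap G K g = (b : K) := fun b ↦
    IsIntegrallyClosed.isIntegral_iff.mp b.2.tower_top
  have hGV : ∀ g : G, algebraMap G K g ∈ V := fun g ↦
    algebraMap_mem_locRing (K := K) (P := P) (⟨algebraMap G K g,
      (Algebra.IsIntegral.isIntegral (R := Pol 2) g).map (IsScalarTower.toAlgHom (Pol 2) G K)⟩ : B)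
  obtain ⟨aϖ, tϖ, htϖ, hatϖ⟩ := hϖV
  obtain ⟨au, tu, htu, hatu⟩ := hu
  obtain ⟨gaϖ, hgaϖ⟩ := hGB aϖ
  obtain ⟨gtϖ, hgtϖ⟩ := hGB tϖ
  obtain ⟨gau, hgau⟩ := hGB au
  obtain ⟨gtu, hgtu⟩ := hGB tu
  change ϖ * (tϖ : K) = (aϖ : K) at hatϖ
  change u * (tu : K) = (au : K) at hatu
  rw [← hgtϖ, ← hgaϖ] at hatϖ
  rw [← hgtu, ← hgau] at hatu
  set T := gtu * gtϖ ^ (e + 1) with hT
  have hTB : tu * tϖ ^ (e + 1) ∉ P := fun h ↦
    (‹P.IsPrime›.mem_or_mem h).elim htu fun h' ↦ htϖ (‹P.IsPrime›.mem_of_pow_mem _ h')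
  have hTinv : (algebraMap G K T)⁻¹ ∈ V := by
    rw [hT, map_mul, map_pow, hgtu, hgtϖ]
    exact inv_mem_locRing (K := K) hTB
  have hTne : algebraMap G K T ≠ 0 := by
    rw [hT, map_mul, map_pow, hgtu, hgtϖ]
    exact fun h ↦ hTB (by rw [show tu * tϖ ^ (e + 1) = 0 from Subtype.ext h]; exact P.zero_mem)
  have hrel : algebraMap (Pol 2) G π * T = gau * gaϖ ^ (e + 1) := by
    refine IsFractionRing.injective G K ?_
    rw [hT, map_mul, map_mul, map_mul, map_pow, map_pow, ← IsScalarTower.algebraMap_apply, hπu,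
      ← hatu, ← hatϖ, mul_pow]
    ring
  have h := congrArg (fun x ↦ algebraMap G K (δ x)) hrel
  simp only [Derivation.leibniz, Derivation.leibniz_pow, smul_eq_mul, nsmul_eq_mul, map_add,
    map_mul, map_pow, map_natCast, Nat.add_sub_cancel] at h
  rw [← IsScalarTower.algebraMap_apply, hπu, ← hatϖ] at h
  refine ⟨(algebraMap G K (δ gau) * ϖ * algebraMap G K gtϖ ^ (e + 1) +
    algebraMap G K gau * ((e + 1 : ℕ) * algebraMap G K gtϖ ^ e * algebraMap G K (δ gaϖ)) -
    u * ϖ * algebraMap G K (δ T)) * (algebraMap G K T)⁻¹, ?_, ?_⟩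
  · refine mul_mem (sub_mem (add_mem ?_ ?_) ?_) hTinv
    · exact mul_mem (mul_mem (hGV _) ⟨aϖ, tϖ, htϖ, by
        change ϖ * (tϖ : K) = (aϖ : K)
        rw [← hgtϖ, ← hgaϖ]; exact hatϖ⟩) (pow_mem (hGV _) _)
    · exact mul_mem (hGV _) (mul_mem (mul_mem (natCast_mem _ _) (pow_mem (hGV _) _)) (hGV _))
    · exact mul_mem (mul_mem ⟨au, tu, htu, by
        change u * (tu : K) = (au : K)
        rw [← hgtu, ← hgau]; exact hatu⟩ ⟨aϖ, tϖ, htϖ, by
        change ϖ * (tϖ : K) = (aϖ : K)
        rw [← hgtϖ, ← hgaϖ]; exact hatϖ⟩) (hGV _)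
  · field_simp
    linear_combination h

omit [IsDomain G] [Algebra ℂ G] [IsScalarTower ℂ (Pol 2) G] [Module.Finite (Pol 2) G]
  [FaithfulSMul (Pol 2) G] in
/-- An element with integral traces has poles bounded by the ramification power less one. -/
lemma mul_uniformizer_pow_mem (z : K)
    (hz : ∀ g : G, ∃ p : Pol 2, algebraMap (Pol 2) L p =
      Algebra.trace L K (z * algebraMap G K g))
    (π : Pol 2) (hπ : Prime π) (P : Ideal (integralClosure (Pol 2) K)) [P.IsPrime]
    (hP : P.comap (algebraMap (Pol 2) (integralClosure (Pol 2) K)) = Ideal.span {π})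
    {ϖ u : K} {e : ℕ} (hϖP : InMax K P ϖ) (hϖ0 : ϖ ≠ 0)
    (hfac : ∀ x ∈ locRing K P, x ≠ 0 →
      ∃ (n : ℕ), ∃ v ∈ locRing K P, v⁻¹ ∈ locRing K P ∧ x = v * ϖ ^ n)
    (hui : u⁻¹ ∈ locRing K P) (hπu : algebraMap (Pol 2) K π = u * ϖ ^ (e + 1))
    (hπB0 : algebraMap (Pol 2) (integralClosure (Pol 2) K) π ≠ 0) :
    z * ϖ ^ e ∈ locRing K P := by
  classical
  let B := integralClosure (Pol 2) K
  let V := locRing K P
  have hϖV : ϖ ∈ V := let ⟨a, t, _, ht, h'⟩ := hϖP; ⟨a, t, ht, h'⟩
  have : IsFractionRing B K := integralClosure.isFractionRing_of_finite_extension L K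
  have : Module.Finite (Pol 2) B := IsIntegralClosure.finite (Pol 2) L K B
  have hGB : ∀ b : B, ∃ g : G, algebraMap G K g = (b : K) := fun b ↦
    IsIntegrallyClosed.isIntegral_iff.mp b.2.tower_top
  have hπ0 : algebraMap (Pol 2) K π ≠ 0 := fun h ↦ hπB0 (Subtype.ext h)
  by_contra hnot
  have hz0 : z ≠ 0 := fun h ↦ hnot (by rw [h, zero_mul]; exact zero_mem _)
  obtain ⟨a, b, hb, hab⟩ := IsFractionRing.div_surjective (A := B) z
  have hb0 : algebraMap B K b ≠ 0 :=
    (map_ne_zero_iff _ (IsFractionRing.injective B K)).mpr (nonZeroDivisors.ne_zero hb)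
  have ha0 : algebraMap B K a ≠ 0 := fun h ↦ hz0 (by rw [← hab, h, zero_div])
  obtain ⟨i, ua, hua, huai, hai⟩ := hfac _ (algebraMap_mem_locRing a) ha0
  obtain ⟨j, ub, hub, hubi, hbj⟩ := hfac _ (algebraMap_mem_locRing b) hb0
  have hua0 : ua ≠ 0 := fun h ↦ ha0 (by rw [hai, h, zero_mul])
  have hub0 : ub ≠ 0 := fun h ↦ hb0 (by rw [hbj, h, zero_mul])
  have hu0 : u ≠ 0 := fun h ↦ hπ0 (by rw [hπu, h, zero_mul])
  have hij : i + e < j := by
    by_contra hle
    rw [not_lt] at hle
    obtain ⟨c, hc⟩ := Nat.exists_eq_add_of_le hle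
    refine hnot ?_
    have : z * ϖ ^ e = ua * ub⁻¹ * ϖ ^ c := by
      rw [← hab, hai, hbj]
      field_simp
      rw [← pow_add, hc, pow_add]
    rw [this]
    exact mul_mem (mul_mem hua hubi) (pow_mem hϖV _)
  obtain ⟨c, hc⟩ : ∃ c, j = i + (e + 1) + c := ⟨j - (i + (e + 1)), by omega⟩
  obtain ⟨g, t, ht, hgt⟩ : (z * algebraMap (Pol 2) K π)⁻¹ ∈ V := by
    have : (z * algebraMap (Pol 2) K π)⁻¹ = u⁻¹ * ub * ua⁻¹ * ϖ ^ c := by
      rw [← hab, hai, hbj, hπu, hc, pow_add, pow_add]
      field_simp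
    rw [this]
    exact mul_mem (mul_mem (mul_mem hui hub) huai)
      (pow_mem hϖV _)
  let I₀ : Ideal (Pol 2) := Ideal.span {π}
  have : I₀.IsPrime := (Ideal.span_singleton_prime hπ.ne_zero).mpr hπ
  have hfib : (I₀.primesOver B).Finite := Algebra.QuasiFinite.finite_primesOver I₀
  have hoth : ∀ y : (hfib.toFinset.erase P : Finset (Ideal B)), ∃ x ∈ (y : Ideal B), x ∉ P := by
    rintro ⟨y, hy⟩
    obtain ⟨hne, hy⟩ := Finset.mem_erase.mp hy
    obtain ⟨hyp, hyo⟩ := hfib.mem_toFinset.mp hy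
    refine SetLike.not_le_iff_exists.mp fun hle ↦ hne ?_
    rcases prime_le_of_comap_eq_span hπ hP hle with h0 | h0
    · exfalso
      have h1 : π ∈ (y.under (Pol 2)) := by
        rw [← ((Ideal.liesOver_iff _ _).mp hyo : I₀ = _)]
        exact Ideal.mem_span_singleton_self π
      change y = ⊥ at h0
      rw [Ideal.under, Ideal.mem_comap, h0, Ideal.mem_bot] at h1
      exact hπB0 h1
    · exact h0
  choose f hf hfP using hoth
  set w := t * ∏ y, f y with hw
  have hwP : w ∉ P := fun h ↦ (‹P.IsPrime›.mem_or_mem h).elim ht fun h' ↦ by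
    obtain ⟨y, -, hy⟩ := ‹P.IsPrime›.prod_mem_iff.mp h'
    exact hfP y hy
  obtain ⟨q, hqM, hq⟩ : ∃ q, q ∈ (P ⊔ Ideal.span {w}).comap (algebraMap (Pol 2) B) ∧
      q ∉ P.comap (algebraMap (Pol 2) B) :=
    Set.exists_of_ssubset (Ideal.comap_lt_comap_of_integral_mem_sdiff le_sup_left
      ⟨Ideal.mem_sup_right (Ideal.mem_span_singleton_self w), hwP⟩
      (Algebra.IsIntegral.isIntegral w))
  rw [hP] at hq
  obtain ⟨x, hx, y, hy, hxy⟩ := Submodule.mem_sup.mp hqM
  obtain ⟨c', rfl⟩ := Ideal.mem_span_singleton'.mp hy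
  set H := c' * w with hH
  obtain ⟨g', hg'⟩ := hGB (c' * (∏ y, f y) * g)
  obtain ⟨p, hp⟩ := hz g'
  refine trace_not_mem' (K := K) (L := L) (I₀ := I₀) (fun n hn ↦ ?_) P hP H q ?_ ?_ hq (π * p)
    (Ideal.mul_mem_right _ _ (Ideal.mem_span_singleton_self π)) ?_
  · by_contra hn0
    exact hπ.not_isUnit (isUnit_of_dvd_unit (Ideal.mem_span_singleton.mp hn)
      (by
        rw [← map_natCast (MvPolynomial.C : ℂ →+* Pol 2)]
        exact (IsUnit.mk0 _ (Nat.cast_ne_zero.mpr hn0)).map _))
  · rw [← hxy, sub_add_cancel_right]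
    exact P.neg_mem hx
  · intro y hy hne
    refine Ideal.mul_mem_left _ _ (Ideal.mul_mem_left _ _ ?_)
    have hmem : y ∈ hfib.toFinset.erase P := Finset.mem_erase.mpr ⟨hne, hfib.mem_toFinset.mpr hy⟩
    rw [← Finset.mul_prod_erase _ _ (Finset.mem_univ ⟨y, hmem⟩)]
    exact Ideal.mul_mem_right _ _ (hf ⟨y, hmem⟩)
  · have hzπ : z * algebraMap (Pol 2) K π ≠ 0 := mul_ne_zero hz0 hπ0
    have hHK : (H : K) = algebraMap L K (algebraMap (Pol 2) L π) * (z * algebraMap G K g') := by
      have hgt' : (g : K) = (z * algebraMap (Pol 2) K π)⁻¹ * (t : K) := hgt.symm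
      rw [← IsScalarTower.algebraMap_apply, hg', hH, hw]
      push_cast
      rw [hgt']
      field_simp
    rw [hHK, ← Algebra.smul_def, map_smul, smul_eq_mul, ← hp, map_mul]

omit [IsDomain G] [FaithfulSMul (Pol 2) G] in
/-- At each height-one prime the determinant times an element with integral traces is integral. -/
lemma detDer_mul_mem_locRing (θ η : Derivation ℂ G G) (z : K)
    (hz : ∀ g : G, ∃ p : Pol 2, algebraMap (Pol 2) L p =
      Algebra.trace L K (z * algebraMap G K g))
    (π : Pol 2) (hπ : Prime π) (P : Ideal (integralClosure (Pol 2) K)) [P.IsPrime]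
    (hP : P.comap (algebraMap (Pol 2) (integralClosure (Pol 2) K)) = Ideal.span {π}) :
    algebraMap G K (detDer θ η) * z ∈ locRing K P := by
  classical
  let B := integralClosure (Pol 2) K
  have : IsFractionRing B K := integralClosure.isFractionRing_of_finite_extension L K
  have : IsIntegrallyClosed B := integralClosure.isIntegrallyClosedOfFiniteExtension L
  have : Algebra.IsSeparable L K := inferInstance
  have : Module.Finite (Pol 2) B := IsIntegralClosure.finite (Pol 2) L K B
  have : IsNoetherianRing B := IsNoetherianRing.of_finite (Pol 2) B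
  have hGB : ∀ b : B, ∃ g : G, algebraMap G K g = (b : K) := fun b ↦
    IsIntegrallyClosed.isIntegral_iff.mp (b.2.tower_top)
  have hBG : ∀ g : G, IsIntegral (Pol 2) (algebraMap G K g) := fun g ↦
    (Algebra.IsIntegral.isIntegral (R := Pol 2) g).map (IsScalarTower.toAlgHom (Pol 2) G K)
  let V := locRing K P
  have hGV : ∀ g : G, algebraMap G K g ∈ V := fun g ↦
    algebraMap_mem_locRing (K := K) (P := P) (⟨algebraMap G K g, hBG g⟩ : B)
  have hinj : Function.Injective (algebraMap (Pol 2) B) := fun x y hxy ↦ by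
    have h := congrArg Subtype.val hxy
    change algebraMap (Pol 2) K x = algebraMap (Pol 2) K y at h
    rw [IsScalarTower.algebraMap_apply (Pol 2) L K, IsScalarTower.algebraMap_apply (Pol 2) L K] at h
    exact IsFractionRing.injective (Pol 2) L ((algebraMap L K).injective h)
  have hπP : algebraMap (Pol 2) B π ∈ P := by
    have : π ∈ P.comap (algebraMap (Pol 2) B) := hP ▸ Ideal.mem_span_singleton_self π
    exact this
  have hπB0 : algebraMap (Pol 2) B π ≠ 0 := (map_ne_zero_iff _ hinj).mpr hπ.ne_zero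
  have hπ0 : algebraMap (Pol 2) K π ≠ 0 := fun h ↦ hπB0 (Subtype.ext h)
  have hP0 : P ≠ ⊥ := fun h ↦ hπB0 (by simpa [h] using hπP)
  obtain ⟨ϖ, hϖ0, hϖP, hfac⟩ := exists_uniformizer (K := K)
    (fun Q _ hle ↦ prime_le_of_comap_eq_span hπ hP hle) hP0
  have hϖV : ϖ ∈ V := let ⟨a, t, _, ht, h'⟩ := hϖP; ⟨a, t, ht, h'⟩
  obtain ⟨e', u, hu, hui, hπu⟩ := hfac _ (algebraMap_mem_locRing (algebraMap (Pol 2) B π) :
    algebraMap B K (algebraMap (Pol 2) B π) ∈ V) (fun h ↦ hπB0 (Subtype.ext h))
  change algebraMap (Pol 2) K π = u * ϖ ^ e' at hπu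
  obtain ⟨e, rfl⟩ : ∃ e, e' = e + 1 := by
    refine Nat.exists_eq_succ_of_ne_zero fun h0 ↦ not_inMax_one (K := K) (P := P) ?_
    have h1 : InMax K P (algebraMap (Pol 2) K π) := inMax_algebraMap (K := K) hπP
    have h2 := h1.mul_mem hui
    rwa [hπu, h0, pow_zero, mul_one, mul_inv_cancel₀] at h2
    rintro rfl
    exact hπ0 (by rw [hπu, zero_mul])
  have hDiv : ∀ δ : Derivation ℂ G G, ∃ v ∈ V,
      algebraMap G K (δ (algebraMap (Pol 2) G π)) = v * ϖ ^ e :=
    fun δ ↦ exists_div_der P π hϖV hu hπu δ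
  obtain ⟨vθ, hvθ, hθ⟩ := hDiv θ
  obtain ⟨vη, hvη, hη⟩ := hDiv η
  obtain ⟨vy, hvy, hy⟩ : ∃ v ∈ V, algebraMap G K (detDer θ η) = v * ϖ ^ e := by
    obtain ⟨l₀, hl₀⟩ := exists_pderiv_not_dvd hπ
    have hl₀P : algebraMap (Pol 2) B (MvPolynomial.pderiv l₀ π) ∉ P := fun h' ↦ by
      have : MvPolynomial.pderiv l₀ π ∈ P.comap (algebraMap (Pol 2) B) := h'
      rw [hP, Ideal.mem_span_singleton] at this
      exact hl₀ this
    have hinv : (algebraMap (Pol 2) K (MvPolynomial.pderiv l₀ π))⁻¹ ∈ V :=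
      inv_mem_locRing (K := K) hl₀P
    have hne : algebraMap (Pol 2) K (MvPolynomial.pderiv l₀ π) ≠ 0 := fun h ↦ hl₀P (by
      rw [show algebraMap (Pol 2) B (MvPolynomial.pderiv l₀ π) = 0 from Subtype.ext h]
      exact P.zero_mem)
    obtain ⟨h0, h1⟩ := pderiv_mul_detDer θ η π
    have key : ∀ l : Fin 2, ∃ w ∈ V, algebraMap (Pol 2) K (MvPolynomial.pderiv l π) *
        algebraMap G K (detDer θ η) = w * ϖ ^ e := by
      refine Fin.forall_fin_two.mpr ⟨?_, ?_⟩
      · refine ⟨vθ * algebraMap G K (η (algebraMap (Pol 2) G (MvPolynomial.X 1))) -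
          vη * algebraMap G K (θ (algebraMap (Pol 2) G (MvPolynomial.X 1))),
          sub_mem (mul_mem hvθ (hGV _)) (mul_mem hvη (hGV _)), ?_⟩
        rw [IsScalarTower.algebraMap_apply (Pol 2) G K, ← map_mul (algebraMap G K), h0, map_sub,
          map_mul, map_mul, hθ, hη]
        ring
      · refine ⟨vη * algebraMap G K (θ (algebraMap (Pol 2) G (MvPolynomial.X 0))) -
          vθ * algebraMap G K (η (algebraMap (Pol 2) G (MvPolynomial.X 0))),
          sub_mem (mul_mem hvη (hGV _)) (mul_mem hvθ (hGV _)), ?_⟩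
        rw [IsScalarTower.algebraMap_apply (Pol 2) G K, ← map_mul (algebraMap G K), h1, map_sub,
          map_mul, map_mul, hθ, hη]
        ring
    obtain ⟨w, hw, hwe⟩ := key l₀
    refine ⟨(algebraMap (Pol 2) K (MvPolynomial.pderiv l₀ π))⁻¹ * w, mul_mem hinv hw, ?_⟩
    field_simp
    linear_combination hwe
  have hzV : z * ϖ ^ e ∈ V :=
    mul_uniformizer_pow_mem (L := L) z hz π hπ P hP hϖP hϖ0 hfac hui hπu hπB0
  rw [hy, show vy * ϖ ^ e * z = vy * (z * ϖ ^ e) by ring]
  exact mul_mem hvy hzV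

omit [IsDomain G] [FaithfulSMul (Pol 2) G] in
/-- The determinant of two derivations times an element with integral traces lies in the ring. -/
theorem detDer_mul_mem (θ η : Derivation ℂ G G) (z : K)
    (hz : ∀ g : G, ∃ p : Pol 2, algebraMap (Pol 2) L p =
      Algebra.trace L K (z * algebraMap G K g)) :
    ∃ g₀ : G, algebraMap G K g₀ = algebraMap G K (detDer θ η) * z := by
  classical
  set w := algebraMap G K (detDer θ η) * z
  let B := integralClosure (Pol 2) K
  have hw : ∀ (π : Pol 2), Prime π → ∀ (P : Ideal B) [P.IsPrime],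
      P.comap (algebraMap (Pol 2) B) = Ideal.span {π} → w ∈ locRing K P :=
    fun π hπ P _ hP ↦ detDer_mul_mem_locRing (L := L) θ η z hz π hπ P hP
  have htr : ∀ (n : ℕ) (g : G), ∃ p : Pol 2, algebraMap (Pol 2) L p =
      Algebra.trace L K (w ^ n * algebraMap G K g) := fun n g ↦ by
    refine trace_mem _ fun π hπ P hP hPπ ↦ ?_
    have hπP : algebraMap (Pol 2) B π ∈ P := by
      have : π ∈ P.comap (algebraMap (Pol 2) B) := hPπ ▸ Ideal.mem_span_singleton_self π
      exact this
    refine (inMax_algebraMap (K := K) hπP).mul_mem (mul_mem (pow_mem (hw π hπ P hPπ) n) ?_)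
    exact algebraMap_mem_locRing (⟨algebraMap G K g,
      (Algebra.IsIntegral.isIntegral (R := Pol 2) g).map (IsScalarTower.toAlgHom (Pol 2) G K)⟩ : B)
  obtain ⟨s, hs⟩ := Module.finite_def.mp (inferInstance : Module.Finite (Pol 2) G)
  let ψ : K →ₗ[Pol 2] (s → L) := LinearMap.pi fun g ↦
    ((Algebra.trace L K).comp (LinearMap.mulRight L (algebraMap G K g))).restrictScalars (Pol 2)
  have : Algebra.IsIntegral (Pol 2) G := inferInstance
  have : IsIntegralClosure G (Pol 2) K :=
    { algebraMap_injective := IsFractionRing.injective G K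
      isIntegral_iff := fun {x} ↦ ⟨fun hx ↦ IsIntegrallyClosed.isIntegral_iff.mp
        hx.tower_top, by
        rintro ⟨g, rfl⟩
        exact (Algebra.IsIntegral.isIntegral (R := Pol 2) g).map
          (IsScalarTower.toAlgHom (Pol 2) G K)⟩ }
  have hloc : IsLocalization (Algebra.algebraMapSubmonoid G (nonZeroDivisors (Pol 2))) K :=
    IsIntegralClosure.isLocalization (Pol 2) L K G
  have hψ : Function.Injective ψ := by
    rw [← LinearMap.ker_eq_bot, LinearMap.ker_eq_bot']
    intro x hx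
    refine (traceForm_nondegenerate L K).1 x fun y ↦ ?_
    obtain ⟨g, ⟨_, q, hq, rfl⟩, rfl⟩ :=
      IsLocalization.exists_mk'_eq (Algebra.algebraMapSubmonoid G (nonZeroDivisors (Pol 2))) y
    have hg : ∀ g : G, Algebra.trace L K (x * algebraMap G K g) = 0 := fun g ↦ by
      have hg' : g ∈ Submodule.span (Pol 2) (s : Set G) := hs ▸ Submodule.mem_top
      induction hg' using Submodule.span_induction with
      | mem g hg => exact congrFun hx ⟨g, hg⟩
      | zero => simp
      | add a b _ _ ha hb => rw [map_add, mul_add, map_add, ha, hb, add_zero]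
      | smul r a _ ha =>
        rw [Algebra.smul_def, map_mul (algebraMap G K), ← IsScalarTower.algebraMap_apply,
          IsScalarTower.algebraMap_apply (Pol 2) L K, mul_left_comm, ← Algebra.smul_def, map_smul,
          ha, smul_zero]
    set y := IsLocalization.mk' K g (⟨algebraMap (Pol 2) G q, q, hq, rfl⟩ :
      Algebra.algebraMapSubmonoid G (nonZeroDivisors (Pol 2))) with hy
    have hmul : y * algebraMap G K (algebraMap (Pol 2) G q) = algebraMap G K g :=
      IsLocalization.mk'_spec (M := Algebra.algebraMapSubmonoid G (nonZeroDivisors (Pol 2))) K g _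
    have hq0 : algebraMap (Pol 2) L q ≠ 0 :=
      (map_ne_zero_iff _ (IsFractionRing.injective (Pol 2) L)).mpr (nonZeroDivisors.ne_zero hq)
    have h := hg g
    rw [← hmul, ← IsScalarTower.algebraMap_apply, IsScalarTower.algebraMap_apply (Pol 2) L K,
      show x * (y * algebraMap L K (algebraMap (Pol 2) L q)) =
        algebraMap L K (algebraMap (Pol 2) L q) * (x * y) by ring, ← Algebra.smul_def, map_smul,
      smul_eq_mul] at h
    exact (mul_eq_zero.mp h).resolve_left hq0
  let N : Submodule (Pol 2) K := Submodule.span (Pol 2) (Set.range fun n : ℕ ↦ w ^ n)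
  have hfg : N.FG := by
    refine Submodule.fg_of_fg_map_injective ψ hψ ?_
    let Λ : (s → Pol 2) →ₗ[Pol 2] (s → L) := (Algebra.linearMap (Pol 2) L).compLeft s
    have hle : N.map ψ ≤ LinearMap.range Λ := by
      rw [Submodule.map_span, Submodule.span_le]
      rintro _ ⟨_, ⟨n, rfl⟩, rfl⟩
      choose p hp using htr n
      exact ⟨fun g ↦ p g, funext fun g ↦ hp g⟩
    have hfgR : (LinearMap.range Λ).FG := Submodule.fg_range Λ
    have : IsNoetherian (Pol 2) (LinearMap.range Λ) := isNoetherian_of_fg_of_noetherian _ hfgR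
    have := isNoetherian_of_le hle
    exact Module.Finite.iff_fg.mp inferInstance
  have hint : IsIntegral (Pol 2) w := by
    refine isIntegral_of_smul_mem_submodule N (fun h ↦ ?_) hfg w fun x hx ↦ ?_
    · have h1 : (1 : K) ∈ N := Submodule.subset_span ⟨0, by simp⟩
      rw [h, Submodule.mem_bot] at h1
      exact one_ne_zero h1
    · induction hx using Submodule.span_induction with
      | mem y hy =>
        obtain ⟨n, rfl⟩ := hy
        exact Submodule.subset_span ⟨n + 1, pow_succ' w n⟩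
      | zero => simp
      | add a b _ _ ha hb => rw [smul_add]; exact add_mem ha hb
      | smul r a _ ha => rw [smul_comm]; exact N.smul_mem r ha
  exact IsIntegrallyClosed.isIntegral_iff.mp hint.tower_top

end

end Vale.Agent.P266
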