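import Vale.Agent.P266.Cone.Free
import Vale.Agent.P266.Cone.Trace

/-!
# P266: derivations of a graded normal domain of dimension two with late generators

A homogeneous derivation of degree `s - 1` is a multiple of the Euler derivation as soon as a
generator over a polynomial ring generated in degree one occurs in a degree at least `s + 2`.
-/

noncomputable section

namespace Vale.Agent.P266

variable {G : Type*} [CommRing G] [Algebra ℂ G] [Algebra (Pol 2) G] [IsScalarTower ℂ (Pol 2) G]
  (S : Grading G)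

lemma algebraMap_mem_piece (hX : ∀ l, algebraMap (Pol 2) G (MvPolynomial.X l) ∈ S.piece 1)
    {e : ℕ} {p : Pol 2} (hp : p.IsHomogeneous e) : algebraMap (Pol 2) G p ∈ S.piece e := by
  rw [p.as_sum, map_sum]
  refine sum_mem fun d hd => ?_
  have hdeg : d 0 + d 1 = e := by
    have h1 := hp (MvPolynomial.mem_support_iff.1 hd)
    simpa [Finsupp.weight_apply, Finsupp.sum_fintype, Fin.sum_univ_two] using h1
  rw [MvPolynomial.monomial_eq, Finsupp.prod_fintype _ _ (fun i => pow_zero _), Fin.prod_univ_two,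
    map_mul, map_mul, map_pow, map_pow, ← MvPolynomial.algebraMap_eq,
    ← IsScalarTower.algebraMap_apply]
  have h := S.mul_mem (S.algebraMap_mem (p.coeff d))
    (S.mul_mem (S.pow_mem (hX 0) (d 0)) (S.pow_mem (hX 1) (d 1)))
  rwa [zero_add, mul_one, mul_one, hdeg] at h

lemma pr_algebraMap (hX : ∀ l, algebraMap (Pol 2) G (MvPolynomial.X l) ∈ S.piece 1) (e : ℕ)
    (p : Pol 2) : S.pr e (algebraMap (Pol 2) G p) =
      algebraMap (Pol 2) G (MvPolynomial.homogeneousComponent e p) := by
  conv_lhs => rw [← MvPolynomial.sum_homogeneousComponent p, map_sum, map_sum]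
  rw [Finset.sum_congr rfl fun i _ => S.pr_of_mem e i _
    (algebraMap_mem_piece S hX (MvPolynomial.homogeneousComponent_isHomogeneous i p))]
  rw [Finset.sum_ite_eq]
  split_ifs with h
  · rfl
  · rw [Finset.mem_range] at h
    rw [MvPolynomial.homogeneousComponent_eq_zero _ _ (by omega), map_zero]

lemma repr_mem {ι : Type} [Fintype ι] {deg : ι → ℕ} (b : Module.Basis ι (Pol 2) G)
    (hb : ∀ i, b i ∈ S.piece (deg i))
    (hX : ∀ l, algebraMap (Pol 2) G (MvPolynomial.X l) ∈ S.piece 1) {D : ℕ} {w : G}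
    (hw : w ∈ S.piece D) (i : ι) :
    algebraMap (Pol 2) G (b.repr w i) ∈ S.piece (D - deg i) ∧
      (D < deg i → b.repr w i = 0) := by
  let c : ι → Pol 2 := fun i => if deg i ≤ D then
    MvPolynomial.homogeneousComponent (D - deg i) (b.repr w i) else 0
  have hwc : w = ∑ i, c i • b i := by
    conv_lhs => rw [← S.pr_self hw, ← b.sum_repr w, map_sum]
    refine Finset.sum_congr rfl fun i _ => ?_
    rw [Algebra.smul_def, S.pr_mul_right (hb i), pr_algebraMap S hX, Algebra.smul_def]
    simp only [c]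
    split_ifs
    · rfl
    · rw [map_zero, zero_mul]
  have hci : b.repr w i = c i := by
    conv_lhs => rw [hwc, b.repr_sum_self]
  rw [hci]
  simp only [c]
  split_ifs with h
  · exact ⟨algebraMap_mem_piece S hX (MvPolynomial.homogeneousComponent_isHomogeneous _ _),
      fun h' => absurd h' (by omega)⟩
  · exact ⟨by rw [map_zero]; exact zero_mem _, fun _ => rfl⟩

lemma trace_piece {ι : Type} [Fintype ι] {deg : ι → ℕ} (b : Module.Basis ι (Pol 2) G)
    (hb : ∀ i, b i ∈ S.piece (deg i))
    (hX : ∀ l, algebraMap (Pol 2) G (MvPolynomial.X l) ∈ S.piece 1) {D : ℕ} {w : G}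
    (hw : w ∈ S.piece D) :
    algebraMap (Pol 2) G (Algebra.trace (Pol 2) G w) ∈ S.piece D := by
  classical
  rw [Algebra.trace_eq_matrix_trace b, Matrix.trace, map_sum]
  refine sum_mem fun i _ => ?_
  rw [Matrix.diag_apply, Algebra.leftMulMatrix_eq_repr_mul]
  have h := (repr_mem S b hb hX (S.mul_mem hw (hb i)) i).1
  rwa [Nat.add_sub_cancel] at h

namespace Grading

variable {G : Type*} [CommRing G] [IsDomain G] [IsIntegrallyClosed G] [Algebra ℂ G]
  {S : Grading G} {ℓ : Fin 2 → G} {N : ℕ}

/-- A derivation of degree `s - 1` is `φ` times the Euler derivation when there is a generator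
of degree at least `s + 2`. -/
lemma IsReduction.der_eq (h : S.IsReduction ℓ N) (E : Derivation ℂ G G)
    (hE : ∀ n, ∀ x ∈ S.piece n, E x = n • x) (θ : Derivation ℂ G G) (s : ℕ)
    (hθ : ∀ n, ∀ x ∈ S.piece (n + 1), θ x ∈ S.piece (n + s)) {n₀ : ℕ} (hn₀ : s + 2 ≤ n₀)
    (hnot : ¬ S.piece n₀ ≤ S.pairPiece (ℓ 0) (ℓ 1) n₀) :
    ∃ φ : G, φ ∈ S.piece (s - 1) ∧ (s = 0 → φ = 0) ∧
      ∀ n, ∀ x ∈ S.piece n, θ x = n • (φ * x) := by
  classical
  let : Algebra (Pol 2) G := (MvPolynomial.aeval (R := ℂ) ℓ).toRingHom.toAlgebra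
  have : IsScalarTower ℂ (Pol 2) G :=
    IsScalarTower.of_algebraMap_eq fun c => ((MvPolynomial.aeval (R := ℂ) ℓ).commutes c).symm
  have hXl : ∀ l, algebraMap (Pol 2) G (MvPolynomial.X l) = ℓ l := fun l =>
    MvPolynomial.aeval_X ℓ l
  have hX : ∀ l, algebraMap (Pol 2) G (MvPolynomial.X l) ∈ S.piece 1 := fun l => by
    rw [hXl]; exact h.mem l
  obtain ⟨ι, _, deg, b, hb, hex⟩ := h.exists_basis hXl
  obtain ⟨i₀, hi₀⟩ := hex n₀ hnot
  have : Module.Finite (Pol 2) G := Module.Finite.of_basis b
  have : Module.Free (Pol 2) G := Module.Free.of_basis b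
  have hinj : Function.Injective (algebraMap (Pol 2) G) := by
    intro p q hpq
    have h1 := congrArg (fun x => b.repr x i₀) (congrArg (fun x => x * b i₀) hpq)
    simpa [← Algebra.smul_def] using h1
  have : FaithfulSMul (Pol 2) G := (faithfulSMul_iff_algebraMap_injective _ _).2 hinj
  let L := FractionRing (Pol 2)
  let K := FractionRing G
  have : CharZero L := Algebra.charZero_of_charZero ℂ L
  have : FaithfulSMul (Pol 2) K := (faithfulSMul_iff_algebraMap_injective _ _).mpr <| by
    rw [IsScalarTower.algebraMap_eq (Pol 2) G K]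
    exact (IsFractionRing.injective G K).comp hinj
  let : Algebra L K := FractionRing.liftAlgebra (Pol 2) K
  have : IsScalarTower (Pol 2) L K := FractionRing.isScalarTower_liftAlgebra (Pol 2) K
  have : FiniteDimensional L K := finiteDimensional_fractionRing (P := Pol 2) (A := G)
  have : IsIntegralClosure G (Pol 2) K :=
    { algebraMap_injective := IsFractionRing.injective G K
      isIntegral_iff := fun {x} ↦ ⟨fun hx ↦ IsIntegrallyClosed.isIntegral_iff.mp hx.tower_top, by
        rintro ⟨g, rfl⟩
        exact (Algebra.IsIntegral.isIntegral (R := Pol 2) g).map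
          (IsScalarTower.toAlgHom (Pol 2) G K)⟩ }
  have : IsLocalization (Algebra.algebraMapSubmonoid G (nonZeroDivisors (Pol 2))) K :=
    IsIntegralClosure.isLocalization (Pol 2) L K G
  -- the element whose trace pairing is the coordinate at `i₀`
  let bK := b.localizationLocalization L (nonZeroDivisors (Pol 2)) K
  let z : K := (LinearMap.BilinForm.toDual (Algebra.traceForm L K)
    (traceForm_nondegenerate L K)).symm (bK.coord i₀)
  have hz : ∀ u : G, Algebra.trace L K (z * algebraMap G K u) =
      algebraMap (Pol 2) L (b.repr u i₀) := by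
    intro u
    have h1 := LinearMap.BilinForm.apply_toDual_symm_apply
      (hB := traceForm_nondegenerate L K) (bK.coord i₀) (algebraMap G K u)
    rw [Algebra.traceForm_apply] at h1
    rw [h1, Module.Basis.coord_apply, Module.Basis.localizationLocalization_repr_algebraMap]
  obtain ⟨g₀, hg₀⟩ := detDer_mul_mem (L := L) θ E z fun g => ⟨_, (hz g).symm⟩
  set y := detDer θ E with hy
  have hθl : ∀ l, θ (ℓ l) ∈ S.piece s := fun l => by simpa using hθ 0 (ℓ l) (h.mem l)
  have hyeq : y = θ (ℓ 0) * ℓ 1 - θ (ℓ 1) * ℓ 0 := by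
    simp only [hy, detDer, hXl]
    rw [hE 1 _ (h.mem 0), hE 1 _ (h.mem 1), one_smul, one_smul]
  have hymem : y ∈ S.piece (s + 1) := by
    rw [hyeq]
    exact sub_mem (S.mul_mem (hθl 0) (h.mem 1)) (S.mul_mem (hθl 1) (h.mem 0))
  -- the coordinate vanishes on the multiples of `y`
  have hcoord : ∀ u, b.repr (y * u) i₀ = 0 := by
    intro u
    induction u using S.induction_on with
    | h0 => simp
    | ha a c ha hc => simp [mul_add, ha, hc]
    | hh du u hu =>
      have htr : Algebra.trace (Pol 2) G (g₀ * u) = b.repr (y * u) i₀ := by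
        refine IsFractionRing.injective (Pol 2) L ?_
        rw [← Algebra.trace_localization (Pol 2) (nonZeroDivisors (Pol 2)) (Rₘ := L) (Sₘ := K),
          ← hz, map_mul (algebraMap G K), map_mul (algebraMap G K), hg₀]
        congr 1
        ring
      have hlow : ∀ e < du, ∀ g : G, S.pr e (algebraMap (Pol 2) G
          (Algebra.trace (Pol 2) G (g * u))) = 0 := by
        intro e he g
        induction g using S.induction_on with
        | h0 => simp
        | ha a c ha hc => rw [add_mul, map_add, map_add, map_add, ha, hc, add_zero]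
        | hh n a ha => exact S.pr_ne (trace_piece S b hb hX (S.mul_mem ha hu)) (by omega)
      obtain ⟨hmem, hzero⟩ := repr_mem S b hb hX (S.mul_mem hymem hu) i₀
      by_cases hlt : s + 1 + du < deg i₀
      · exact hzero hlt
      · refine hinj ?_
        rw [map_zero, ← S.pr_self hmem, ← htr]
        exact hlow _ (by omega) g₀
  have hy0 : y = 0 := by
    by_contra hne
    have hcomap := Ideal.comap_ne_bot_of_integral_mem (R := Pol 2) hne
      (Ideal.mem_span_singleton_self y) (Algebra.IsIntegral.isIntegral y)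
    obtain ⟨a, ha, ha0⟩ := Submodule.exists_mem_ne_zero_of_ne_bot hcomap
    obtain ⟨w, hw⟩ := Ideal.mem_span_singleton'.1 (Ideal.mem_comap.1 ha)
    refine ha0 ?_
    have h1 := hcoord (w * b i₀)
    rw [← mul_assoc, mul_comm y w, hw, ← Algebra.smul_def] at h1
    simpa using h1
  -- hence `θ` is proportional to the Euler derivation
  rw [hyeq, sub_eq_zero] at hy0
  obtain ⟨φ', hφ'⟩ := h.regular (θ (ℓ 0)) ⟨θ (ℓ 1), by rw [mul_comm (ℓ 1), hy0, mul_comm]⟩
  set φ := if s = 0 then 0 else S.pr (s - 1) φ' with hφdef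
  have hφ0 : θ (ℓ 0) = ℓ 0 * φ := by
    have h1 := congrArg (S.pr s) hφ'
    rw [S.pr_self (hθl 0), S.pr_mul_left (h.mem 0)] at h1
    rw [h1, hφdef]
    rcases Nat.eq_zero_or_pos s with hs | hs
    · rw [if_pos hs, if_neg (show ¬ 1 ≤ s by omega), mul_zero]
    · rw [if_neg (show ¬ s = 0 by omega), if_pos (show 1 ≤ s by omega)]
  have hφ1 : θ (ℓ 1) = ℓ 1 * φ := mul_right_cancel₀ (h.ne_zero 0) (by
    rw [← hy0, hφ0]; ring)
  refine ⟨φ, ?_, fun hs => if_pos hs, fun n x hx => ?_⟩
  · rw [hφdef]
    split_ifs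
    · exact zero_mem _
    · exact S.pr_mem _ _
  · let δ : Derivation ℂ G G := θ - φ • E
    have hδl : ∀ l, δ (algebraMap (Pol 2) G (MvPolynomial.X l)) = 0 := by
      intro l
      rw [hXl, Derivation.sub_apply, Derivation.smul_apply, hE 1 _ (h.mem l), one_smul,
        smul_eq_mul]
      fin_cases l
      · simp [hφ0, mul_comm]
      · simp [hφ1, mul_comm]
    have hδ : δ x = 0 := by
      refine IsFractionRing.injective G K ?_
      rw [map_zero]
      refine derA_eq_zero_of_pol (d := 2) (K := K)
        ((Algebra.linearMap G K).compDer δ) (fun p => ?_) x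
      simp [der_chain δ p, hδl]
    rw [Derivation.sub_apply, sub_eq_zero] at hδ
    rw [hδ, Derivation.smul_apply, hE n x hx, smul_eq_mul, mul_smul_comm]

end Grading

end Vale.Agent.P266
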