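import Vale.Agent.P266.Cone.Grading
import Vale.Agent.P266.Setup

/-!
# P266: two forms of degree one in a graded normal domain

Two forms of degree one generating a high power of the irrelevant ideal form a regular sequence,
and the ring is free over the polynomial ring they generate, with a homogeneous basis.
-/

noncomputable section

namespace Vale.Agent.P266

open Polynomial in
/-- Elements independent modulo `(u, x)` are independent over the polynomials in `u` and `x`. -/
lemma poly_indep {G : Type*} [CommRing G] [IsDomain G] [Algebra ℂ G] {ι : Type*} [Fintype ι]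
    (b : ι → G) (u x : G) (hu0 : u ≠ 0) (hreg : ∀ z : G, u ∣ x * z → u ∣ z)
    (hind : ∀ c : ι → ℂ, ∑ i, c i • b i ∈ Ideal.span ({u, x} : Set G) → c = 0)
    (f : ι → ℂ[X][X]) (hf : ∑ i, eval₂ (aeval x).toRingHom u (f i) * b i = 0) : f = 0 := by
  have hA : ∀ (k : ℕ) (p : ι → ℂ[X]), (∀ i j, k ≤ j → (p i).coeff j = 0) →
      u ∣ ∑ i, aeval x (p i) * b i → p = 0 := by
    intro k
    induction k with
    | zero => exact fun p hp _ => funext fun i => Polynomial.ext fun j => by simp [hp i j]
    | succ k ih =>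
      intro p hp hdvd
      have hdec : ∀ i, aeval x (p i) * b i =
          x * (aeval x (p i).divX * b i) + (p i).coeff 0 • b i := fun i => by
        conv_lhs => rw [← X_mul_divX_add (p i)]
        rw [map_add, map_mul, aeval_X, aeval_C, add_mul, mul_assoc, Algebra.smul_def]
      simp only [hdec, Finset.sum_add_distrib, ← Finset.mul_sum] at hdvd
      have hc : (fun i => (p i).coeff 0) = 0 := hind _ <| by
        obtain ⟨w, hw⟩ := hdvd
        rw [eq_sub_of_add_eq' hw]
        exact sub_mem (Ideal.mul_mem_right _ _ (Ideal.subset_span (by simp)))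
          (Ideal.mul_mem_right _ _ (Ideal.subset_span (by simp)))
      rw [show ∑ i, (p i).coeff 0 • b i = 0 from Finset.sum_eq_zero fun i _ => by
        rw [show (p i).coeff 0 = 0 from congrFun hc i, zero_smul], add_zero] at hdvd
      have hq := ih (fun i => (p i).divX) (fun i j hj => by
        rw [coeff_divX]; exact hp i _ (by omega)) (hreg _ hdvd)
      refine funext fun i => ?_
      rw [Pi.zero_apply, ← X_mul_divX_add (p i), show (p i).divX = 0 from congrFun hq i,
        show (p i).coeff 0 = 0 from congrFun hc i]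
      simp
  suffices ∀ (k : ℕ) (f : ι → ℂ[X][X]), (∀ i j, k ≤ j → (f i).coeff j = 0) →
      ∑ i, eval₂ (aeval x).toRingHom u (f i) * b i = 0 → f = 0 by
    refine this (Finset.univ.sup fun i => (f i).natDegree + 1) f (fun i j hj => ?_) hf
    refine coeff_eq_zero_of_natDegree_lt ?_
    have := Finset.le_sup (f := fun i => (f i).natDegree + 1) (Finset.mem_univ i)
    omega
  intro k
  induction k with
  | zero => exact fun f hf _ => funext fun i => Polynomial.ext fun j => by simp [hf i j]
  | succ k ih =>
    intro f hf hsum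
    have hdec : ∀ i, eval₂ (aeval x).toRingHom u (f i) * b i =
        u * (eval₂ (aeval x).toRingHom u (f i).divX * b i) + aeval x ((f i).coeff 0) * b i :=
      fun i => by
        conv_lhs => rw [← X_mul_divX_add (f i)]
        rw [eval₂_add, eval₂_mul, eval₂_X, eval₂_C, add_mul, mul_assoc]
        rfl
    simp only [hdec, Finset.sum_add_distrib, ← Finset.mul_sum] at hsum
    set T := ∑ i, eval₂ (aeval x).toRingHom u (f i).divX * b i
    have hc : (fun i => (f i).coeff 0) = 0 :=
      hA (Finset.univ.sup fun i => ((f i).coeff 0).natDegree + 1) _ (fun i j hj => by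
        refine coeff_eq_zero_of_natDegree_lt ?_
        have := Finset.le_sup (f := fun i => ((f i).coeff 0).natDegree + 1) (Finset.mem_univ i)
        omega) ⟨-T, by
          rw [mul_neg]
          exact (neg_eq_of_add_eq_zero_right hsum).symm⟩
    rw [show ∑ i, aeval x ((f i).coeff 0) * b i = 0 from Finset.sum_eq_zero fun i _ => by
      rw [show (f i).coeff 0 = 0 from congrFun hc i, map_zero, zero_mul], add_zero] at hsum
    have hq := ih (fun i => (f i).divX) (fun i j hj => by
      rw [coeff_divX]; exact hf i _ (by omega)) ((mul_eq_zero.1 hsum).resolve_left hu0)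
    refine funext fun i => ?_
    rw [Pi.zero_apply, ← X_mul_divX_add (f i), show (f i).divX = 0 from congrFun hq i,
      show (f i).coeff 0 = 0 from congrFun hc i]
    simp

namespace Grading

variable {G : Type*} [CommRing G] [Algebra ℂ G] (S : Grading G)

/-- The degree `n` part of the ideal generated by two forms of degree one. -/
def pairPiece (u x : G) : ℕ → Submodule ℂ G
  | 0 => ⊥
  | n + 1 => (S.piece n).map (LinearMap.mulLeft ℂ u) ⊔ (S.piece n).map (LinearMap.mulLeft ℂ x)

lemma mem_pairPiece_succ {u x w : G} {n : ℕ} :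
    w ∈ S.pairPiece u x (n + 1) ↔
      ∃ a ∈ S.piece n, ∃ c ∈ S.piece n, u * a + x * c = w := by
  simp [pairPiece, Submodule.mem_sup]

lemma pairPiece_le {u x : G} (hu : u ∈ S.piece 1) (hx : x ∈ S.piece 1) :
    ∀ n, S.pairPiece u x n ≤ S.piece n
  | 0 => bot_le
  | n + 1 => by
    intro w hw
    obtain ⟨a, ha, c, hc, rfl⟩ := (S.mem_pairPiece_succ).1 hw
    rw [add_comm n 1]
    exact add_mem (S.mul_mem hu ha) (S.mul_mem hx hc)

lemma pairPiece_le_span (u x : G) : ∀ n (w : G), w ∈ S.pairPiece u x n →
    w ∈ Ideal.span ({u, x} : Set G)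
  | 0, w, hw => by rw [(Submodule.mem_bot ℂ).1 hw]; exact zero_mem _
  | n + 1, w, hw => by
    obtain ⟨a, _, c, _, rfl⟩ := (S.mem_pairPiece_succ).1 hw
    exact add_mem (Ideal.mul_mem_right _ _ (Ideal.subset_span (by simp)))
      (Ideal.mul_mem_right _ _ (Ideal.subset_span (by simp)))

lemma pr_mem_pairPiece {u x w : G} (hu : u ∈ S.piece 1) (hx : x ∈ S.piece 1)
    (hw : w ∈ Ideal.span ({u, x} : Set G)) : ∀ n, S.pr n w ∈ S.pairPiece u x n := by
  obtain ⟨a, c, rfl⟩ := Ideal.mem_span_pair.1 hw
  rintro (_ | n)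
  · rw [map_add, S.pr_mul_right hu, S.pr_mul_right hx, if_neg (by omega), if_neg (by omega),
      add_zero]
    exact zero_mem _
  · rw [map_add, S.pr_mul_right hu, S.pr_mul_right hx, if_pos (by omega), if_pos (by omega),
      Nat.add_sub_cancel]
    exact S.mem_pairPiece_succ.2 ⟨_, S.pr_mem n a, _, S.pr_mem n c, by ring⟩

/-- A grading generated in degree one by finitely many elements. -/
structure IsStandard (S : Grading G) : Prop where
  gen : ∀ n, S.piece (n + 1) ≤ S.piece 1 * S.piece n
  fin : (S.piece 1).FG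

lemma IsStandard.mul_le (h : S.IsStandard) {J : Ideal G} {n : ℕ}
    (hn : ∀ a ∈ S.piece n, a ∈ J) : ∀ a ∈ S.piece (n + 1), a ∈ J := fun _ ha =>
  Submodule.mul_induction_on (h.gen n ha) (fun p _ q hq => J.mul_mem_left p (hn q hq))
    fun _ _ hp hq => J.add_mem hp hq

lemma IsStandard.mul_le_of_le (h : S.IsStandard) {J : Ideal G} {n k : ℕ} (hk : n ≤ k)
    (hn : ∀ a ∈ S.piece n, a ∈ J) : ∀ a ∈ S.piece k, a ∈ J := by
  induction k, hk using Nat.le_induction with
  | base => exact hn
  | succ k _ ih => exact h.mul_le S ih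

lemma IsStandard.piece_fg (h : S.IsStandard) : ∀ n, (S.piece n).FG
  | 0 => by
    have : S.piece 0 = Submodule.span ℂ {1} := by
      refine le_antisymm (fun a ha => ?_)
        ((Submodule.span_singleton_le_iff_mem _ _).2 S.one_mem)
      obtain ⟨c, rfl⟩ := S.zero_eq a ha
      rw [Algebra.algebraMap_eq_smul_one]
      exact Submodule.smul_mem _ _ (Submodule.mem_span_singleton_self _)
    rw [this]
    exact Submodule.fg_span_singleton 1
  | n + 1 => by
    have hle : S.piece 1 * S.piece n ≤ S.piece (n + 1) := by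
      rw [Submodule.mul_le]
      intro a ha c hc
      rw [add_comm n 1]
      exact S.mul_mem ha hc
    rw [le_antisymm (h.gen n) hle]
    exact h.fin.mul (h.piece_fg n)

/-- A form of degree one dividing the product with another one, under a high power of the
irrelevant ideal in the ideal they generate. -/
lemma IsStandard.dvd_of_dvd_mul [IsDomain G] [IsIntegrallyClosed G] (h : S.IsStandard)
    {u x : G} (hu : u ∈ S.piece 1) (hx : x ∈ S.piece 1) (hu0 : u ≠ 0)
    (hne : ¬ S.piece 1 ≤ Submodule.span ℂ {u}) {k : ℕ}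
    (hk : ∀ a ∈ S.piece k, a ∈ Ideal.span ({u, x} : Set G)) (z : G) (hz : u ∣ x * z) : u ∣ z := by
  classical
  let K := FractionRing G
  let j : G →+* K := algebraMap G K
  have hj0 : j u ≠ 0 := (map_ne_zero_iff _ (IsFractionRing.injective G K)).2 hu0
  -- an element multiplying the irrelevant ideal into the multiples of `u` is such a multiple
  have hstep : ∀ (n : ℕ) (y : G), y ∈ S.piece n → (∀ a ∈ S.piece 1, u ∣ y * a) → u ∣ y := by
    intro n y hy hdvd
    have hhom : ∀ a ∈ S.piece 1, ∃ c ∈ S.piece n, y * a = u * c := fun a ha => by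
      obtain ⟨c, hc⟩ := hdvd a ha
      refine ⟨S.pr n c, S.pr_mem n c, ?_⟩
      have h1 := congrArg (S.pr (n + 1)) hc
      rwa [S.pr_self (S.mul_mem hy ha), S.pr_mul_left hu, if_pos (by omega),
        Nat.add_sub_cancel] at h1
    rcases n with _ | n
    · obtain ⟨c, rfl⟩ := S.zero_eq y hy
      rcases eq_or_ne c 0 with rfl | hc
      · simp
      · refine absurd (fun a ha => ?_) hne
        obtain ⟨d, hd, hda⟩ := hhom a ha
        obtain ⟨d', rfl⟩ := S.zero_eq d hd
        rw [Submodule.mem_span_singleton]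
        refine ⟨c⁻¹ * d', ?_⟩
        rw [Algebra.smul_def, map_mul, mul_assoc, mul_comm _ u, ← hda, ← mul_assoc, ← map_mul,
          inv_mul_cancel₀ hc, map_one, one_mul]
    · obtain ⟨s, hs⟩ := h.fin
      let I : Submodule G K := Submodule.span G (j '' (s : Set G))
      have hI1 : ∀ a ∈ S.piece 1, j a ∈ I := fun a ha => by
        rw [← hs] at ha
        induction ha using Submodule.span_induction with
        | mem a ha => exact Submodule.subset_span ⟨a, ha, rfl⟩
        | zero => simp
        | add a c _ _ ha hc => rw [map_add]; exact add_mem ha hc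
        | smul r a _ ha =>
          rw [Algebra.smul_def, map_mul, ← smul_eq_mul, algebraMap_smul]
          exact I.smul_mem (algebraMap ℂ G r) ha
      have hIn : ∀ i, ∀ a ∈ S.piece (i + 1), j a ∈ I := by
        intro i
        induction i with
        | zero => exact hI1
        | succ i ih =>
          intro a ha
          refine Submodule.mul_induction_on (h.gen _ ha) (fun p _ q hq => ?_) fun p q hp hq => ?_
          · rw [map_mul, ← smul_eq_mul, algebraMap_smul]
            exact I.smul_mem p (ih q hq)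
          · rw [map_add]
            exact add_mem hp hq
      have hint : IsIntegral G (j y / j u) := by
        refine isIntegral_of_smul_mem_submodule I (fun hI => ?_)
          (Submodule.fg_span (s.finite_toSet.image _)) _ fun w hw => ?_
        · have h1 := hI1 u hu
          rw [hI, Submodule.mem_bot] at h1
          exact hj0 h1
        · induction hw using Submodule.span_induction with
          | mem w hw =>
            obtain ⟨a, ha, rfl⟩ := hw
            obtain ⟨c, hc, hac⟩ := hhom a (hs ▸ Submodule.subset_span ha)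
            have h1 : (j y / j u) • j a = j c := by
              rw [smul_eq_mul, div_mul_eq_mul_div, ← map_mul, hac, map_mul,
                mul_div_cancel_left₀ _ hj0]
            rw [h1]
            exact hIn n c hc
          | zero => simp
          | add a c _ _ ha hc => rw [smul_add]; exact add_mem ha hc
          | smul r a _ ha => rw [smul_comm]; exact I.smul_mem r ha
      obtain ⟨w, hw⟩ := IsIntegrallyClosed.isIntegral_iff.1 hint
      refine ⟨w, IsFractionRing.injective G K ?_⟩
      rw [map_mul, hw, mul_div_cancel₀ _ hj0]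
  -- descent from degree `k` to degree zero
  have hhomz : ∀ (n : ℕ) (z : G), z ∈ S.piece n → u ∣ x * z → u ∣ z := by
    intro n z hzn hz
    suffices ∀ i ≤ k, ∀ a ∈ S.piece (k - i), u ∣ z * a by
      simpa using this k le_rfl 1 (by simpa using S.one_mem)
    intro i
    induction i with
    | zero =>
      intro _ a ha
      obtain ⟨p, q, hpq⟩ := Ideal.mem_span_pair.1 (hk a (by simpa using ha))
      rw [← hpq, mul_add]
      refine dvd_add ⟨z * p, by ring⟩ ?_
      obtain ⟨w, hw⟩ := hz
      exact ⟨w * q, by rw [← mul_assoc u, ← hw]; ring⟩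
    | succ i ih =>
      intro hi a ha
      refine hstep _ _ (S.mul_mem hzn ha) fun c hc => ?_
      rw [mul_assoc]
      refine ih (by omega) _ ?_
      have := S.mul_mem ha hc
      rwa [show k - (i + 1) + 1 = k - i by omega] at this
  obtain ⟨w, hw⟩ := hz
  obtain ⟨N, hN⟩ := S.exists_eq_sum z
  rw [hN]
  refine Finset.dvd_sum fun n _ => hhomz n _ (S.pr_mem n z) ⟨S.pr n w, ?_⟩
  have h1 := congrArg (S.pr (n + 1)) hw
  rwa [S.pr_mul_left hx, S.pr_mul_left hu, if_pos (by omega), if_pos (by omega),
    Nat.add_sub_cancel] at h1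

/-- Two forms of degree one generating the irrelevant ideal from degree `N` on. -/
structure IsReduction (S : Grading G) (ℓ : Fin 2 → G) (N : ℕ) : Prop extends S.IsStandard where
  mem : ∀ l, ℓ l ∈ S.piece 1
  succ_le : ∀ n, N ≤ n → S.piece (n + 1) ≤ S.pairPiece (ℓ 0) (ℓ 1) (n + 1)
  indep : LinearIndependent ℂ ℓ

namespace IsReduction

variable {S} {ℓ : Fin 2 → G} {N : ℕ}

lemma mem_span (h : S.IsReduction ℓ N) :
    ∀ a ∈ S.piece (N + 1), a ∈ Ideal.span ({ℓ 0, ℓ 1} : Set G) := fun a ha =>
  S.pairPiece_le_span _ _ _ a (h.succ_le N le_rfl ha)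

lemma ne_zero (h : S.IsReduction ℓ N) (l : Fin 2) : ℓ l ≠ 0 := h.indep.ne_zero l

lemma not_le_span (h : S.IsReduction ℓ N) (u : G) : ¬ S.piece 1 ≤ Submodule.span ℂ {u} := by
  intro hle
  obtain ⟨a, ha⟩ := Submodule.mem_span_singleton.1 (hle (h.mem 0))
  obtain ⟨c, hc⟩ := Submodule.mem_span_singleton.1 (hle (h.mem 1))
  have h0 : c • ℓ 0 + (-a) • ℓ 1 = 0 := by
    rw [← ha, ← hc, smul_smul, smul_smul, ← add_smul, neg_mul, mul_comm, add_neg_cancel, zero_smul]
  have h1 := Fintype.linearIndependent_iff.1 h.indep ![c, -a] (by simpa [Fin.sum_univ_two] using h0)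
  have ha0 : a = 0 := by simpa using h1 1
  exact h.ne_zero 0 (by rw [← ha, ha0, zero_smul])

lemma regular [IsDomain G] [IsIntegrallyClosed G] (h : S.IsReduction ℓ N) (z : G)
    (hz : ℓ 0 ∣ ℓ 1 * z) : ℓ 0 ∣ z :=
  h.toIsStandard.dvd_of_dvd_mul S (h.mem 0) (h.mem 1) (h.ne_zero 0) (h.not_le_span _) h.mem_span z
    hz

/-- The ring is free over the polynomials in the two forms, with a homogeneous basis having a
member in each degree where new generators are needed. -/
lemma exists_basis [IsDomain G] [IsIntegrallyClosed G] [Algebra (Pol 2) G]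
    [IsScalarTower ℂ (Pol 2) G] (h : S.IsReduction ℓ N)
    (hX : ∀ l, algebraMap (Pol 2) G (MvPolynomial.X l) = ℓ l) :
    ∃ (ι : Type) (_ : Fintype ι) (deg : ι → ℕ) (b : Module.Basis ι (Pol 2) G),
      (∀ i, b i ∈ S.piece (deg i)) ∧
        ∀ n, ¬ S.piece n ≤ S.pairPiece (ℓ 0) (ℓ 1) n → ∃ i, deg i = n := by
  classical
  have hfin : ∀ n, Module.Finite ℂ (S.piece n) := fun n =>
    Module.Finite.iff_fg.2 (h.toIsStandard.piece_fg S n)
  choose C hC using fun n => Submodule.exists_isCompl (S.pairPiece (ℓ 0) (ℓ 1) n)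
  have hCfin : ∀ n, Module.Finite ℂ (C n ⊓ S.piece n : Submodule ℂ G) := fun n =>
    Submodule.finiteDimensional_of_le inf_le_right
  have hdec : ∀ n, S.piece n ≤ S.pairPiece (ℓ 0) (ℓ 1) n ⊔ (C n ⊓ S.piece n) := fun n => by
    rw [← sup_inf_assoc_of_le (C n) (S.pairPiece_le (h.mem 0) (h.mem 1) n),
      (hC n).sup_eq_top, top_inf_eq]
  let bas := fun n => Module.finBasis ℂ (C n ⊓ S.piece n : Submodule ℂ G)
  let ι := Σ n : Fin (N + 1), Fin (Module.finrank ℂ (C n ⊓ S.piece n : Submodule ℂ G))
  let deg : ι → ℕ := fun i => i.1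
  let b : ι → G := fun i => (bas i.1 i.2 : G)
  have hbdeg : ∀ i, b i ∈ S.piece (deg i) := fun i => (bas i.1 i.2).2.2
  -- spanning
  have hspan : ∀ n, ∀ a ∈ S.piece n, a ∈ Submodule.span (Pol 2) (Set.range b) := by
    intro n
    induction n using Nat.strong_induction_on with
    | _ n ih =>
      intro a ha
      obtain ⟨q, hq, w, hw, rfl⟩ := Submodule.mem_sup.1 (hdec n ha)
      refine add_mem ?_ ?_
      · rcases n with _ | n
        · rw [(Submodule.mem_bot ℂ).1 hq]; exact zero_mem _
        · obtain ⟨p, hp, r, hr, rfl⟩ := S.mem_pairPiece_succ.1 hq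
          rw [← hX 0, ← hX 1, ← Algebra.smul_def, ← Algebra.smul_def]
          exact add_mem (Submodule.smul_mem _ _ (ih n (by omega) p hp))
            (Submodule.smul_mem _ _ (ih n (by omega) r hr))
      · by_cases hn : n < N + 1
        · have hwn := (bas n).sum_repr ⟨w, hw⟩
          have h1 := congrArg Subtype.val hwn
          rw [Submodule.coe_sum] at h1
          rw [← show _ = w from h1]
          refine sum_mem fun e _ => ?_
          show (bas n).repr ⟨w, hw⟩ e • (bas n e : G) ∈ _
          refine Submodule.smul_of_tower_mem _ _ (Submodule.subset_span ⟨⟨⟨n, hn⟩, e⟩, rfl⟩)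
        · obtain ⟨k, rfl⟩ : ∃ k, n = k + 1 := ⟨n - 1, by omega⟩
          have h1 : w ∈ S.pairPiece (ℓ 0) (ℓ 1) (k + 1) := h.succ_le k (by omega) hw.2
          rw [(hC (k + 1)).disjoint.le_bot ⟨h1, hw.1⟩]
          exact zero_mem _
  -- independence modulo the two forms
  have hind : ∀ c : ι → ℂ, ∑ i, c i • b i ∈ Ideal.span ({ℓ 0, ℓ 1} : Set G) → c = 0 := by
    intro c hc
    refine funext fun ⟨n, e⟩ => ?_
    have hpr := S.pr_mem_pairPiece (h.mem 0) (h.mem 1) hc n
    have hsum : S.pr n (∑ i, c i • b i) = ∑ e, c ⟨n, e⟩ • (bas n e : G) := by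
      rw [map_sum, ← Finset.univ_sigma_univ, Finset.sum_sigma, Finset.sum_eq_single n]
      · refine Finset.sum_congr rfl fun e _ => ?_
        rw [map_smul, S.pr_self (hbdeg ⟨n, e⟩)]
      · intro m _ hm
        refine Finset.sum_eq_zero fun e _ => ?_
        rw [map_smul, S.pr_ne (hbdeg ⟨m, e⟩) fun hh => hm (Fin.val_injective hh.symm), smul_zero]
      · simp
    rw [hsum] at hpr
    have h2 : (∑ e, c ⟨n, e⟩ • (bas n e : G)) ∈ C n :=
      sum_mem fun e _ => Submodule.smul_mem _ _ (bas n e).2.1
    have h3 := (hC n).disjoint.le_bot ⟨hpr, h2⟩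
    rw [Submodule.mem_bot] at h3
    have h4 : ∑ e, c ⟨n, e⟩ • bas n e = 0 := Subtype.ext (by simpa [Submodule.coe_sum] using h3)
    exact Fintype.linearIndependent_iff.1 (bas n).linearIndependent _ h4 e
  -- independence
  let ψ : Pol 2 →ₐ[ℂ] Polynomial (Polynomial ℂ) :=
    MvPolynomial.aeval ![Polynomial.X, Polynomial.C Polynomial.X]
  let φ : Polynomial (Polynomial ℂ) →+* G :=
    Polynomial.eval₂RingHom (Polynomial.aeval (ℓ 1)).toRingHom (ℓ 0)
  have hφψ : φ.comp ψ.toRingHom = algebraMap (Pol 2) G := by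
    refine MvPolynomial.ringHom_ext (fun r => ?_) fun l => ?_
    · rw [← MvPolynomial.algebraMap_eq, ← IsScalarTower.algebraMap_apply]
      simp [φ, ψ]
    · fin_cases l <;> simp [φ, ψ, hX]
  have hψ : Function.Injective ψ := by
    let back : Polynomial (Polynomial ℂ) →+* Pol 2 :=
      Polynomial.eval₂RingHom (Polynomial.aeval (MvPolynomial.X 1 : Pol 2)).toRingHom
        (MvPolynomial.X 0)
    have : back.comp ψ.toRingHom = RingHom.id _ :=
      MvPolynomial.ringHom_ext (fun r => by simp [back, ψ, MvPolynomial.algebraMap_eq])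
        fun l => by fin_cases l <;> simp [back, ψ]
    exact fun p q hpq => by
      simpa using (RingHom.congr_fun this p).symm.trans
        ((congrArg back hpq).trans (RingHom.congr_fun this q))
  have hli : LinearIndependent (Pol 2) b := by
    rw [Fintype.linearIndependent_iff]
    intro f hf i
    refine hψ ?_
    rw [map_zero]
    refine congrFun (poly_indep b (ℓ 0) (ℓ 1) (h.ne_zero 0) h.regular hind (fun i => ψ (f i)) ?_) i
    rw [← hf]
    refine Finset.sum_congr rfl fun i _ => ?_
    rw [Algebra.smul_def, ← hφψ]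
    rfl
  refine ⟨ι, inferInstance, deg, Module.Basis.mk hli (fun a _ => ?_), fun i => ?_, fun n hn => ?_⟩
  · obtain ⟨M, hM⟩ := S.exists_eq_sum a
    rw [hM]
    exact sum_mem fun n _ => hspan n _ (S.pr_mem n a)
  · rw [Module.Basis.mk_apply]; exact hbdeg i
  · have hnN : n < N + 1 := by
      by_contra hnN
      obtain ⟨k, rfl⟩ : ∃ k, n = k + 1 := ⟨n - 1, by omega⟩
      exact hn (h.succ_le k (by omega))
    have hpos : 0 < Module.finrank ℂ (C n ⊓ S.piece n : Submodule ℂ G) := by
      rw [Nat.pos_iff_ne_zero]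
      intro h0
      refine hn ((hdec n).trans ?_)
      rw [Submodule.finrank_eq_zero.1 h0, sup_bot_eq]
    exact ⟨⟨⟨n, hnN⟩, ⟨0, hpos⟩⟩, rfl⟩

end IsReduction

end Grading

end Vale.Agent.P266
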