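import Mathlib

/-!
# P266: a light notion of grading

A grading of an algebra by the natural numbers given by projections onto finite-dimensional pieces.
-/

namespace Vale.Agent.P266

/-- A grading by natural numbers, given by its pieces and the projections onto them. -/
structure Grading (G : Type*) [CommRing G] [Algebra ℂ G] where
  piece : ℕ → Submodule ℂ G
  pr : ℕ → (G →ₗ[ℂ] G)
  pr_mem : ∀ n x, pr n x ∈ piece n
  pr_of_mem : ∀ n j x, x ∈ piece j → pr n x = if n = j then x else 0
  exists_eq_sum : ∀ x, ∃ N, x = ∑ n ∈ Finset.range N, pr n x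
  mul_mem : ∀ {i j x y}, x ∈ piece i → y ∈ piece j → x * y ∈ piece (i + j)
  zero_eq : ∀ x ∈ piece 0, ∃ c : ℂ, x = algebraMap ℂ G c
  one_mem : (1 : G) ∈ piece 0

namespace Grading

variable {G : Type*} [CommRing G] [Algebra ℂ G] (S : Grading G)

lemma algebraMap_mem (c : ℂ) : algebraMap ℂ G c ∈ S.piece 0 := by
  rw [Algebra.algebraMap_eq_smul_one]
  exact (S.piece 0).smul_mem c S.one_mem

lemma pr_self {n : ℕ} {x : G} (h : x ∈ S.piece n) : S.pr n x = x := by
  rw [S.pr_of_mem n n x h, if_pos rfl]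

lemma pr_ne {n j : ℕ} {x : G} (h : x ∈ S.piece j) (hn : n ≠ j) : S.pr n x = 0 := by
  rw [S.pr_of_mem n j x h, if_neg hn]

lemma eq_zero_of_pr (x : G) (h : ∀ n, S.pr n x = 0) : x = 0 := by
  obtain ⟨N, hN⟩ := S.exists_eq_sum x
  rw [hN]
  exact Finset.sum_eq_zero fun n _ => h n

lemma eq_zero_of_mem_of_mem {n j : ℕ} {x : G} (hn : x ∈ S.piece n) (hj : x ∈ S.piece j)
    (hne : n ≠ j) : x = 0 := by
  rw [← S.pr_self hn, S.pr_ne hj hne]

lemma pow_mem {j : ℕ} {x : G} (h : x ∈ S.piece j) (k : ℕ) : x ^ k ∈ S.piece (k * j) := by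
  induction k with
  | zero => simpa using S.one_mem
  | succ k ih => rw [pow_succ, add_mul, one_mul]; exact S.mul_mem ih h

lemma pr_mul_left {j : ℕ} {x : G} (hx : x ∈ S.piece j) (y : G) (n : ℕ) :
    S.pr n (x * y) = if j ≤ n then x * S.pr (n - j) y else 0 := by
  obtain ⟨N, hN⟩ := S.exists_eq_sum y
  have h : ∀ i ∈ Finset.range N,
      S.pr n (x * S.pr i y) = if n = j + i then x * S.pr i y else 0 := fun i _ =>
    S.pr_of_mem n (j + i) _ (S.mul_mem hx (S.pr_mem i y))
  conv_lhs => rw [hN, Finset.mul_sum, map_sum]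
  rw [Finset.sum_congr rfl h]
  by_cases hjn : j ≤ n
  · rw [if_pos hjn]
    by_cases hlt : n - j < N
    · rw [Finset.sum_eq_single (n - j)]
      · rw [if_pos (by omega)]
      · intro i _ hi
        rw [if_neg (by omega)]
      · intro h'
        exact absurd (Finset.mem_range.2 hlt) h'
    · have h0 : S.pr (n - j) y = 0 := by
        rw [hN, map_sum]
        refine Finset.sum_eq_zero fun i hi => S.pr_ne (S.pr_mem i y) ?_
        rw [Finset.mem_range] at hi
        omega
      rw [h0, mul_zero]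
      refine Finset.sum_eq_zero fun i hi => if_neg ?_
      rw [Finset.mem_range] at hi
      omega
  · rw [if_neg hjn]
    exact Finset.sum_eq_zero fun i _ => if_neg (by omega)

lemma pr_mul_right {j : ℕ} {x : G} (hx : x ∈ S.piece j) (y : G) (n : ℕ) :
    S.pr n (y * x) = if j ≤ n then S.pr (n - j) y * x else 0 := by
  rw [mul_comm, S.pr_mul_left hx]
  split_ifs with h
  · exact mul_comm _ _
  · rfl

/-- To check an additive property it is enough to check homogeneous elements. -/
lemma induction_on {P : G → Prop} (x : G) (h0 : P 0) (ha : ∀ a b, P a → P b → P (a + b))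
    (hh : ∀ n a, a ∈ S.piece n → P a) : P x := by
  obtain ⟨N, hN⟩ := S.exists_eq_sum x
  rw [hN]
  exact Finset.sum_induction _ P ha h0 fun n _ => hh n _ (S.pr_mem n x)

end Grading

end Vale.Agent.P266
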