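import Vale.Agent.P266.Cone.Defs

/-!
# P266: derivations of the tangent cone
-/

noncomputable section

namespace Vale.Agent.P266

variable {A : Type*} [CommRing A] [Algebra ℂ A] (m : Ideal A)

/-- A derivation lowers the order at the point by at most one. -/
lemma der_pow_succ_le (D : Derivation ℂ A A) (n : ℕ) : ∀ z ∈ m ^ (n + 1), D z ∈ m ^ n := by
  induction n with
  | zero => intro z _; simp
  | succ n ih =>
    intro z hz
    rw [pow_succ' m (n + 1)] at hz
    refine Submodule.smul_induction_on hz (fun a ha c hc => ?_) fun a b ha hb => ?_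
    · rw [smul_eq_mul, D.leibniz, smul_eq_mul, smul_eq_mul]
      refine add_mem ?_ (Ideal.mul_mem_right _ _ hc)
      rw [pow_succ']
      exact Ideal.mul_mem_mul ha (ih c hc)
    · rw [map_add]; exact add_mem ha hb

/-- A derivation raising the order of elements of the maximal ideal raises every order. -/
lemma der_pow_le [Algebra.FiniteType ℂ A] [m.IsMaximal] (D : Derivation ℂ A A) {k : ℕ}
    (hD : ∀ z ∈ m, D z ∈ m ^ (k + 1)) (n : ℕ) : ∀ z ∈ m ^ n, D z ∈ m ^ (n + k) := by
  induction n with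
  | zero =>
    intro z _
    obtain ⟨c, hc⟩ := exists_scalar m z
    have h := hD _ hc
    rw [map_sub, D.map_algebraMap, sub_zero] at h
    rw [zero_add]
    exact Ideal.pow_le_pow_right (Nat.le_succ k) h
  | succ n ih =>
    intro z hz
    rw [pow_succ'] at hz
    refine Submodule.smul_induction_on hz (fun a ha c hc => ?_) fun a b ha hb => ?_
    · rw [smul_eq_mul, D.leibniz, smul_eq_mul, smul_eq_mul,
        show n + 1 + k = 1 + (n + k) by omega]
      refine add_mem ?_ ?_
      · rw [pow_add, pow_one]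
        exact Ideal.mul_mem_mul ha (ih c hc)
      · rw [show 1 + (n + k) = n + (k + 1) by omega, pow_add]
        exact Ideal.mul_mem_mul hc (hD a ha)
    · rw [map_add]; exact add_mem ha hb

/-- The Euler operator. -/
def eulerOp : Cone m →ₗ[ℂ] Cone m :=
  coneOp m (fun n => n • LinearMap.id) 0 0
    (fun n _ z hz => by simpa using Ideal.mul_mem_left _ (n : A) hz)
    (fun n _ z hz => by simpa using Ideal.mul_mem_left _ (n : A) hz)

lemma eulerOp_cl (n : ℕ) {z : A} (hz : z ∈ m ^ n) : eulerOp m (cl m n z) = n • cl m n z := by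
  rw [eulerOp, coneOp_cl m _ _ _ _ _ n hz, if_pos (Nat.zero_le _), Nat.add_zero, Nat.sub_zero,
    LinearMap.smul_apply, LinearMap.id_apply, ← Nat.cast_smul_eq_nsmul ℂ, cl_smul hz,
    Nat.cast_smul_eq_nsmul ℂ]

/-- A linear operator satisfying the Leibniz rule on classes is a derivation. -/
def coneDerivation (L : Cone m →ₗ[ℂ] Cone m)
    (h : ∀ i j z w, z ∈ m ^ i → w ∈ m ^ j → L (cl m i z * cl m j w) =
      cl m i z * L (cl m j w) + cl m j w * L (cl m i z)) : Derivation ℂ (Cone m) (Cone m) :=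
  Derivation.mk' L fun x y => by
    simp only [smul_eq_mul]
    induction x using cone_induction with
    | h0 => simp
    | ha a b ha hb => simp only [add_mul, map_add, ha, hb, mul_add]; ring
    | hc i z hz =>
      induction y using cone_induction with
      | h0 => simp
      | ha a b ha hb => simp only [mul_add, map_add, ha, hb, add_mul]; ring
      | hc j w hw => exact h i j z w hz hw

/-- The Euler derivation. -/
def eulerDer : Derivation ℂ (Cone m) (Cone m) :=
  coneDerivation m (eulerOp m) fun i j z w hz hw => by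
    rw [cl_mul hz hw, eulerOp_cl m _ (by rw [pow_add]; exact Ideal.mul_mem_mul hz hw),
      eulerOp_cl m j hw, eulerOp_cl m i hz, ← cl_mul hz hw]
    simp only [nsmul_eq_mul, Nat.cast_add]
    ring

lemma eulerDer_apply {n : ℕ} {x : Cone m} (hx : x ∈ conePiece m n) :
    eulerDer m x = n • x := by
  obtain ⟨z, hz, rfl⟩ := hx
  exact eulerOp_cl m n hz

variable [Algebra.FiniteType ℂ A] [m.IsMaximal] (D : Derivation ℂ A A)

/-- The operator induced by a derivation raising orders by `k`. -/
def shiftOp (k : ℕ) (hD : ∀ z ∈ m, D z ∈ m ^ (k + 1)) : Cone m →ₗ[ℂ] Cone m :=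
  coneOp m (fun _ => D.toLinearMap) k 0
    (fun n _ z hz => by simpa using der_pow_le m D hD n z hz)
    (fun n _ z hz => by
      have h := der_pow_le m D hD (n + 1) z hz
      rwa [show n + 1 + k = n + k - 0 + 1 by omega] at h)

lemma shiftOp_cl (k : ℕ) (hD : ∀ z ∈ m, D z ∈ m ^ (k + 1)) (n : ℕ) {z : A} (hz : z ∈ m ^ n) :
    shiftOp m D k hD (cl m n z) = cl m (n + k) (D z) := by
  rw [shiftOp, coneOp_cl m _ _ _ _ _ n hz, if_pos (Nat.zero_le _), Nat.sub_zero]
  rfl

/-- The derivation of the tangent cone induced by a derivation raising orders by `k`. -/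
def shiftDer (k : ℕ) (hD : ∀ z ∈ m, D z ∈ m ^ (k + 1)) : Derivation ℂ (Cone m) (Cone m) :=
  coneDerivation m (shiftOp m D k hD) fun i j z w hz hw => by
    have h1 := der_pow_le m D hD j w hw
    have h2 := der_pow_le m D hD i z hz
    rw [cl_mul hz hw, shiftOp_cl m D k hD _ (by rw [pow_add]; exact Ideal.mul_mem_mul hz hw),
      shiftOp_cl m D k hD _ hw, shiftOp_cl m D k hD _ hz, cl_mul hz h1, cl_mul hw h2, D.leibniz,
      smul_eq_mul, smul_eq_mul, ← add_assoc, show j + (i + k) = i + j + k by omega, cl_add]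
    · rw [add_assoc, pow_add]; exact Ideal.mul_mem_mul hz h1
    · rw [show i + j + k = j + (i + k) by omega, pow_add]; exact Ideal.mul_mem_mul hw h2

lemma shiftDer_cl (k : ℕ) (hD : ∀ z ∈ m, D z ∈ m ^ (k + 1)) (n : ℕ) {z : A} (hz : z ∈ m ^ n) :
    shiftDer m D k hD (cl m n z) = cl m (n + k) (D z) :=
  shiftOp_cl m D k hD n hz

lemma shiftDer_mem (k : ℕ) (hD : ∀ z ∈ m, D z ∈ m ^ (k + 1)) {n : ℕ} {x : Cone m}
    (hx : x ∈ conePiece m n) : shiftDer m D k hD x ∈ conePiece m (n + k) := by
  obtain ⟨z, hz, rfl⟩ := hx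
  exact ⟨D z, der_pow_le m D hD n z hz, (shiftDer_cl m D k hD n hz).symm⟩

/-- The operator lowering degrees by one induced by any derivation. -/
def lowerOp : Cone m →ₗ[ℂ] Cone m :=
  coneOp m (fun _ => D.toLinearMap) 0 1
    (fun n hn z hz => by
      obtain ⟨j, rfl⟩ : ∃ j, n = j + 1 := ⟨n - 1, by omega⟩
      simpa using der_pow_succ_le m D j z hz)
    (fun n hn z hz => by
      have h := der_pow_succ_le m D n z hz
      rwa [show n + 0 - 1 + 1 = n by omega])

omit [Algebra.FiniteType ℂ A] [m.IsMaximal] in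
lemma lowerOp_cl (n : ℕ) {z : A} (hz : z ∈ m ^ n) :
    lowerOp m D (cl m n z) = if 1 ≤ n then cl m (n - 1) (D z) else 0 := by
  rw [lowerOp, coneOp_cl m _ _ _ _ _ n hz]
  rfl

/-- The derivation lowering degrees by one. -/
def lowerDer : Derivation ℂ (Cone m) (Cone m) :=
  coneDerivation m (lowerOp m D) fun i j z w hz hw => by
    have hzw : z * w ∈ m ^ (i + j) := by rw [pow_add]; exact Ideal.mul_mem_mul hz hw
    rw [cl_mul hz hw, lowerOp_cl m D _ hzw, lowerOp_cl m D _ hw, lowerOp_cl m D _ hz, D.leibniz,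
      smul_eq_mul, smul_eq_mul]
    rcases i with _ | i <;> rcases j with _ | j
    · simp
    · have h1 := der_pow_succ_le m D j w hw
      have h0 : w * D z ∈ m ^ (j + 1) := Ideal.mul_mem_right _ _ hw
      rw [if_pos (by omega), if_pos (by omega), if_neg (by omega), mul_zero, add_zero,
        cl_mul hz (by simpa using h1), show 0 + (j + 1) - 1 = j by omega,
        show 0 + (j + 1 - 1) = j by omega,
        cl_add (Ideal.mul_mem_left _ z h1) (Ideal.pow_le_pow_right j.le_succ h0)]
      rw [(cl_eq_zero_iff (Ideal.pow_le_pow_right j.le_succ h0)).2 h0, add_zero]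
    · have h1 := der_pow_succ_le m D i z hz
      have h0 : z * D w ∈ m ^ (i + 1) := Ideal.mul_mem_right _ _ hz
      rw [if_pos (by omega), if_neg (by omega), if_pos (by omega), mul_zero, zero_add,
        cl_mul hw (by simpa using h1), show i + 1 + 0 - 1 = i by omega,
        Nat.zero_add,
        cl_add (Ideal.pow_le_pow_right i.le_succ h0) (Ideal.mul_mem_left _ w h1)]
      rw [(cl_eq_zero_iff (Ideal.pow_le_pow_right i.le_succ h0)).2 h0, zero_add]
    · have h1 := der_pow_succ_le m D i z hz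
      have h2 := der_pow_succ_le m D j w hw
      rw [if_pos (by omega), if_pos (by omega), if_pos (by omega), Nat.add_sub_cancel,
        Nat.add_sub_cancel, cl_mul hz h2, cl_mul hw h1, show j + 1 + i = i + 1 + j by omega,
        show i + 1 + (j + 1) - 1 = i + 1 + j by omega, cl_add]
      · rw [pow_add]; exact Ideal.mul_mem_mul hz h2
      · rw [show i + 1 + j = j + 1 + i by omega, pow_add]; exact Ideal.mul_mem_mul hw h1

omit [Algebra.FiniteType ℂ A] [m.IsMaximal] in
lemma lowerDer_cl (n : ℕ) {z : A} (hz : z ∈ m ^ (n + 1)) :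
    lowerDer m D (cl m (n + 1) z) = cl m n (D z) := by
  show lowerOp m D _ = _
  rw [lowerOp_cl m D _ hz, if_pos (by omega), Nat.add_sub_cancel]

omit [Algebra.FiniteType ℂ A] [m.IsMaximal] in
lemma lowerDer_piece_zero {x : Cone m} (hx : x ∈ conePiece m 0) : lowerDer m D x = 0 := by
  obtain ⟨z, hz, rfl⟩ := hx
  show lowerOp m D _ = _
  rw [lowerOp_cl m D _ hz, if_neg (by omega)]

omit [Algebra.FiniteType ℂ A] [m.IsMaximal] in
lemma lowerDer_mem {n : ℕ} {x : Cone m} (hx : x ∈ conePiece m (n + 1)) :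
    lowerDer m D x ∈ conePiece m n := by
  obtain ⟨z, hz, rfl⟩ := hx
  exact ⟨D z, der_pow_succ_le m D n z hz, (lowerDer_cl m D n hz).symm⟩

omit [Algebra.FiniteType ℂ A] [m.IsMaximal] in
/-- Degree `n + 1` is spanned by products of degree one and degree `n`. -/
lemma conePiece_succ_le (n : ℕ) : conePiece m (n + 1) ≤ Submodule.span ℂ
    {x | ∃ a ∈ conePiece m 1, ∃ b ∈ conePiece m n, a * b = x} := by
  rintro _ ⟨z, hz, rfl⟩
  have hz' := hz
  rw [pow_succ'] at hz'
  suffices z ∈ m ^ (n + 1) ∧ cl m (n + 1) z ∈ Submodule.span ℂ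
      {x | ∃ a ∈ conePiece m 1, ∃ b ∈ conePiece m n, a * b = x} from this.2
  refine Submodule.smul_induction_on hz' (fun a ha c hc => ⟨?_, ?_⟩) fun a b ha hb => ?_
  · rw [pow_succ', smul_eq_mul]; exact Ideal.mul_mem_mul ha hc
  · rw [smul_eq_mul, add_comm n 1, ← cl_mul (by rwa [pow_one]) hc]
    exact Submodule.subset_span ⟨_, ⟨a, by rwa [pow_one], rfl⟩, _, ⟨c, hc, rfl⟩, rfl⟩
  · exact ⟨add_mem ha.1 hb.1, by rw [cl_add ha.1 hb.1]; exact add_mem ha.2 hb.2⟩

end Vale.Agent.P266
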