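import Vale.Agent.P266.Tangent
import Vale.Agent.P266.Cone.Ops

/-!
# P266: two parameters at a closed point of a surface

The residue obstruction for a given pair of parameters, and the passage between the tangent cone
and the local ring.
-/

noncomputable section

namespace Vale.Agent.P266

variable {A : Type*} [CommRing A] [IsDomain A] [Algebra ℂ A] [Algebra.FiniteType ℂ A]
  (m : Ideal A) [m.IsMaximal]

omit [IsDomain A] in
/-- Nakayama: an ideal containing a power of the maximal ideal modulo the next one contains it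
locally. -/
lemma pow_le_map {I : Ideal A} {n : ℕ} (h : m ^ n ≤ I ⊔ m ^ (n + 1)) :
    IsLocalRing.maximalIdeal (Localization.AtPrime m) ^ n ≤
      I.map (algebraMap A (Localization.AtPrime m)) := by
  have hnoe : IsNoetherianRing A := Algebra.FiniteType.isNoetherianRing ℂ A
  have : IsNoetherianRing (Localization.AtPrime m) :=
    IsLocalization.isNoetherianRing m.primeCompl _ hnoe
  rw [← Localization.AtPrime.map_eq_maximalIdeal, ← Ideal.map_pow]
  refine Submodule.le_of_le_smul_of_le_jacobson_bot (IsNoetherian.noetherian _)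
    (IsLocalRing.maximalIdeal_le_jacobson ⊥) ?_
  rw [smul_eq_mul, ← Localization.AtPrime.map_eq_maximalIdeal, ← Ideal.map_mul, ← pow_succ',
    ← Ideal.map_sup]
  exact Ideal.map_mono h

omit [IsDomain A] [Algebra ℂ A] [Algebra.FiniteType ℂ A] in
lemma radical_eq_maximalIdeal {ι : Type*} {g : ι → A} (hgm : ∀ l, g l ∈ m) {n : ℕ}
    (h : IsLocalRing.maximalIdeal (Localization.AtPrime m) ^ n ≤
      (Ideal.span (Set.range g)).map (algebraMap A (Localization.AtPrime m))) :
    ((Ideal.span (Set.range g)).map (algebraMap A (Localization.AtPrime m))).radical =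
      IsLocalRing.maximalIdeal (Localization.AtPrime m) := by
  refine le_antisymm ?_ fun x hx => ⟨n, h (Ideal.pow_mem_pow hx n)⟩
  refine (IsLocalRing.maximalIdeal.isMaximal _).isPrime.radical_le_iff.2 ?_
  rw [← Localization.AtPrime.map_eq_maximalIdeal]
  refine Ideal.map_mono (Ideal.span_le.2 ?_)
  rintro _ ⟨l, rfl⟩
  exact hgm l

omit [IsDomain A] in
/-- If the maximal ideal is generated by two elements modulo its square, the surface is regular
there. -/
lemma isRegularLocalRing_of_le (hd : ringKrullDim (Localization.AtPrime m) = 2) (g : Fin 2 → A)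
    (hgm : ∀ l, g l ∈ m) (h : m ≤ Ideal.span (Set.range g) ⊔ m ^ 2) :
    IsRegularLocalRing (Localization.AtPrime m) := by
  have hnoe : IsNoetherianRing A := Algebra.FiniteType.isNoetherianRing ℂ A
  have : IsNoetherianRing (Localization.AtPrime m) :=
    IsLocalization.isNoetherianRing m.primeCompl _ hnoe
  have hle := pow_le_map m (n := 1) (by simpa using h)
  rw [pow_one] at hle
  have heq : IsLocalRing.maximalIdeal (Localization.AtPrime m) =
      Ideal.span (Set.range fun l => algebraMap A (Localization.AtPrime m) (g l)) := by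
    rw [← map_span_range]
    refine le_antisymm hle ?_
    rw [← Localization.AtPrime.map_eq_maximalIdeal]
    refine Ideal.map_mono (Ideal.span_le.2 ?_)
    rintro _ ⟨l, rfl⟩
    exact hgm l
  refine IsRegularLocalRing.of_spanFinrank_maximalIdeal_le _ ?_
  rw [hd, heq]
  refine Nat.cast_le.mpr ((Submodule.spanFinrank_span_le_ncard_of_finite
    (Set.finite_range _)).trans ?_)
  rw [← Set.image_univ]
  exact (Set.ncard_image_le Set.finite_univ).trans (by simp)

/-- The residue obstruction with the given parameters inside the determinant. -/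
lemma exists_det_not_mem (hDer : Module.Projective A (Derivation ℂ A A))
    (hd : ringKrullDim (Localization.AtPrime m) = 2) (g : Fin 2 → A)
    (hg : ((Ideal.span (Set.range g)).map (algebraMap A (Localization.AtPrime m))).radical =
      IsLocalRing.maximalIdeal (Localization.AtPrime m)) :
    ∃ (h : A) (v : Fin 2 → Derivation ℂ A A), h ∉ m ∧
      (∀ D : Derivation ℂ A A, ∃ c : Fin 2 → A, h • D = ∑ i, c i • v i) ∧
      algebraMap A (Localization.AtPrime m) (v 0 (g 0) * v 1 (g 1) - v 0 (g 1) * v 1 (g 0)) ∉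
        (Ideal.span (Set.range g)).map (algebraMap A (Localization.AtPrime m)) := by
  obtain ⟨h, v, g', hh, hspan, hmap, hdet⟩ := residue_obstruction hDer m 2 hd g hg
  refine ⟨h, v, hh, hspan, fun hmem => hdet ?_⟩
  set R := Localization.AtPrime m
  set I := (Ideal.span (Set.range g)).map (algebraMap A R) with hI
  let π : A →+* R ⧸ I := (Ideal.Quotient.mk I).comp (algebraMap A R)
  have hπ : ∀ a, π a = 0 ↔ algebraMap A R a ∈ I := fun a => Ideal.Quotient.eq_zero_iff_mem
  have hπg : ∀ l, π (g l) = 0 := fun l =>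
    (hπ _).2 (Ideal.mem_map_of_mem _ (Ideal.subset_span ⟨l, rfl⟩))
  -- the new parameters are combinations of the old ones
  have hexp : ∀ l, ∃ (t : A) (a : Fin 2 → A), IsUnit (π t) ∧
      ∀ D : Derivation ℂ A A, π t * π (D (g' l)) = ∑ k, π (a k) * π (D (g k)) := by
    intro l
    have h1 : algebraMap A R (g' l) ∈ I := hmap ▸ Ideal.mem_map_of_mem _ (Ideal.subset_span ⟨l, rfl⟩)
    obtain ⟨t, ht, htx⟩ := (mem_map_atPrime_iff m _ _).1 h1
    obtain ⟨a, ha⟩ := (Submodule.mem_span_range_iff_exists_fun A).1 htx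
    refine ⟨t, a, (IsLocalization.map_units R (⟨t, ht⟩ : m.primeCompl)).map (Ideal.Quotient.mk I),
      fun D => ?_⟩
    have h2 := congrArg (fun x => π (D x)) ha
    simp only [map_sum, smul_eq_mul, Derivation.leibniz, map_add, map_mul, hπg, zero_mul,
      add_zero, (hπ _).2 h1] at h2
    exact h2.symm
  choose t a ht hta using hexp
  have hdet2 : (Matrix.of fun i l => v i (g' l)).det =
      v 0 (g' 0) * v 1 (g' 1) - v 0 (g' 1) * v 1 (g' 0) := by
    rw [Matrix.det_fin_two]
    rfl
  rw [← hπ, map_sub, map_mul, map_mul] at hmem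
  rw [← hπ, hdet2]
  refine ((ht 0).mul (ht 1)).mul_right_eq_zero.1 ?_
  have h00 := hta 0 (v 0)
  have h01 := hta 0 (v 1)
  have h10 := hta 1 (v 0)
  have h11 := hta 1 (v 1)
  simp only [Fin.sum_univ_two] at h00 h01 h10 h11
  rw [map_sub, map_mul, map_mul,
    show π (t 0) * π (t 1) * (π (v 0 (g' 0)) * π (v 1 (g' 1)) - π (v 0 (g' 1)) * π (v 1 (g' 0))) =
      π (t 0) * π (v 0 (g' 0)) * (π (t 1) * π (v 1 (g' 1))) -
        π (t 1) * π (v 0 (g' 1)) * (π (t 0) * π (v 1 (g' 0))) by ring,
    h00, h01, h10, h11]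
  linear_combination (π (a 0 0) * π (a 1 1) - π (a 0 1) * π (a 1 0)) * hmem

/-- Derivatives of the two parameters cannot all lie in high powers of the maximal ideal modulo
the parameters. -/
lemma false_of_orders (hDer : Module.Projective A (Derivation ℂ A A))
    (hd : ringKrullDim (Localization.AtPrime m) = 2) (g : Fin 2 → A) (hgm : ∀ l, g l ∈ m)
    {n a b : ℕ} (hab : n ≤ a + b)
    (hn : IsLocalRing.maximalIdeal (Localization.AtPrime m) ^ n ≤
      (Ideal.span (Set.range g)).map (algebraMap A (Localization.AtPrime m)))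
    (h0 : ∀ D : Derivation ℂ A A, D (g 0) ∈ Ideal.span (Set.range g) ⊔ m ^ a)
    (h1 : ∀ D : Derivation ℂ A A, D (g 1) ∈ Ideal.span (Set.range g) ⊔ m ^ b) : False := by
  obtain ⟨h, v, -, -, hdet⟩ := exists_det_not_mem m hDer hd g (radical_eq_maximalIdeal m hgm hn)
  refine hdet ?_
  set q := Ideal.span (Set.range g)
  have key : ∀ x ∈ q ⊔ m ^ a, ∀ y ∈ q ⊔ m ^ b, x * y ∈ q ⊔ m ^ n := by
    intro x hx y hy
    refine (?_ : (q ⊔ m ^ a) * (q ⊔ m ^ b) ≤ q ⊔ m ^ n) (Ideal.mul_mem_mul hx hy)
    rw [Ideal.mul_le]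
    intro p hp r hr
    obtain ⟨p₁, hp₁, p₂, hp₂, rfl⟩ := Submodule.mem_sup.1 hp
    obtain ⟨r₁, hr₁, r₂, hr₂, rfl⟩ := Submodule.mem_sup.1 hr
    rw [show (p₁ + p₂) * (r₁ + r₂) = (p₁ * (r₁ + r₂) + p₂ * r₁) + p₂ * r₂ by ring]
    refine Submodule.add_mem_sup (q.add_mem (q.mul_mem_right _ hp₁) (q.mul_mem_left _ hr₁)) ?_
    have hpr : p₂ * r₂ ∈ m ^ (a + b) := by
      rw [pow_add]
      exact Ideal.mul_mem_mul hp₂ hr₂
    exact Ideal.pow_le_pow_right hab hpr
  have hmem : v 0 (g 0) * v 1 (g 1) - v 0 (g 1) * v 1 (g 0) ∈ q ⊔ m ^ n := by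
    refine Ideal.sub_mem _ (key _ (h0 _) _ (h1 _)) ?_
    rw [mul_comm]
    exact key _ (h0 _) _ (h1 _)
  refine (?_ : (q ⊔ m ^ n).map (algebraMap A (Localization.AtPrime m)) ≤ _)
    (Ideal.mem_map_of_mem _ hmem)
  rw [Ideal.map_sup, Ideal.map_pow, Localization.AtPrime.map_eq_maximalIdeal]
  exact sup_le le_rfl hn

omit [IsDomain A] in
/-- On a surface no element generates a power of the maximal ideal locally. -/
lemma not_pow_le_span_singleton (hd : ringKrullDim (Localization.AtPrime m) = 2) {x : A}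
    (hx : x ∈ m) (n : ℕ) : ¬ IsLocalRing.maximalIdeal (Localization.AtPrime m) ^ n ≤
      (Ideal.span {x}).map (algebraMap A (Localization.AtPrime m)) := by
  intro hle
  have hnoe : IsNoetherianRing A := Algebra.FiniteType.isNoetherianRing ℂ A
  have : IsNoetherianRing (Localization.AtPrime m) :=
    IsLocalization.isNoetherianRing m.primeCompl _ hnoe
  set R := Localization.AtPrime m
  rw [Ideal.map_span, Set.image_singleton] at hle
  have hmin : IsLocalRing.maximalIdeal R ∈
      (Ideal.span {algebraMap A R x} : Ideal R).minimalPrimes := by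
    refine ⟨⟨(IsLocalRing.maximalIdeal.isMaximal R).isPrime, ?_⟩, fun p hp _ =>
      hp.1.le_of_pow_le (hle.trans hp.2)⟩
    rw [Ideal.span_singleton_le_iff_mem, ← Localization.AtPrime.map_eq_maximalIdeal]
    exact Ideal.mem_map_of_mem _ hx
  have h1 := Ideal.height_le_one_of_isPrincipal_of_mem_minimalPrimes _ _ hmin
  have h2 : ((IsLocalRing.maximalIdeal R).height : WithBot ℕ∞) ≤ ((1 : ℕ∞) : WithBot ℕ∞) :=
    WithBot.coe_le_coe.2 h1
  rw [IsLocalRing.maximalIdeal_height_eq_ringKrullDim, hd] at h2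
  revert h2
  decide

end Vale.Agent.P266
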