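import Vale.Agent.P266.Cone.Degree

/-!
# P266: changing the pair of forms of degree one, and common eigenvectors
-/

noncomputable section

namespace Vale.Agent.P266

open Module in
/-- Two operators whose commutator is in their span have a common eigenvector. -/
lemma exists_common_eigenvector {W : Type*} [AddCommGroup W] [Module ℂ W] [Module.Finite ℂ W]
    [Nontrivial W] (A B : Module.End ℂ W) (α β : ℂ)
    (hAB : ∀ w, A (B w) - B (A w) = α • A w + β • B w) :
    ∃ (u : W) (a c : ℂ), u ≠ 0 ∧ A u = a • u ∧ B u = c • u := by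
  classical
  -- an operator shifting the eigenvalues of another one kills an eigenvector of it
  have shift : ∀ (B N : Module.End ℂ W) (c : ℂ), c ≠ 0 →
      (∀ w, B (N w) - N (B w) = c • N w) → ∃ (u : W) (μ : ℂ), u ≠ 0 ∧ N u = 0 ∧ B u = μ • u := by
    intro B N c hc hBN
    obtain ⟨μ, hμ⟩ := Module.End.exists_eigenvalue B
    obtain ⟨w, hw⟩ := hμ.exists_hasEigenvector
    have hpow : ∀ k : ℕ, B ((N ^ k) w) = (μ + k * c) • (N ^ k) w := by
      intro k
      induction k with
      | zero => simpa using hw.apply_eq_smul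
      | succ k ih =>
        rw [pow_succ', Module.End.mul_apply, sub_eq_iff_eq_add.1 (hBN _), ih, map_smul, ← add_smul]
        push_cast
        congr 1
        ring
    obtain ⟨k, hk⟩ : ∃ k, (N ^ k) w = 0 := by
      by_contra hk
      push Not at hk
      have hinj : Function.Injective fun k : ℕ => μ + k * c := fun i j hij => by
        simpa [hc] using hij
      refine Set.infinite_range_of_injective hinj (B.finite_hasEigenvalue.subset ?_)
      rintro _ ⟨k, rfl⟩
      exact Module.End.hasEigenvalue_of_hasEigenvector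
        ⟨Module.End.mem_eigenspace_iff.2 (hpow k), hk k⟩
    have hex : ∃ k, (N ^ k) w = 0 := ⟨k, hk⟩
    obtain ⟨j, hj⟩ : ∃ j, Nat.find hex = j + 1 := by
      refine Nat.exists_eq_succ_of_ne_zero fun h0 => hw.2 ?_
      have := Nat.find_spec hex
      rwa [h0, pow_zero, Module.End.one_apply] at this
    refine ⟨(N ^ j) w, μ + j * c, Nat.find_min hex (by omega), ?_, hpow j⟩
    have := Nat.find_spec hex
    rwa [hj, pow_succ', Module.End.mul_apply] at this
  rcases ne_or_eq α 0 with hα | hα
  · obtain ⟨u, μ, hu, hNu, hBu⟩ := shift B (A + (β / α) • B) (-α) (by simpa) fun w => by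
      have hA : A (B w) = α • A w + β • B w + B (A w) := sub_eq_iff_eq_add.1 (hAB w)
      simp only [LinearMap.add_apply, LinearMap.smul_apply, map_add, map_smul, hA, smul_add,
        smul_smul]
      rw [show -α * (β / α) = -β by field_simp]
      simp only [neg_smul]
      abel
    refine ⟨u, -(β / α) * μ, μ, hu, ?_, hBu⟩
    rw [LinearMap.add_apply, LinearMap.smul_apply, hBu, smul_smul, add_eq_zero_iff_eq_neg] at hNu
    rw [hNu, neg_mul, neg_smul]
  rcases ne_or_eq β 0 with hβ | hβ
  · obtain ⟨u, μ, hu, hNu, hAu⟩ := shift A B β hβ fun w => by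
      rw [hAB w, hα, zero_smul, zero_add]
    exact ⟨u, μ, 0, hu, hAu, by rw [hNu, zero_smul]⟩
  obtain ⟨a, ha⟩ := Module.End.exists_eigenvalue A
  let E := Module.End.eigenspace A a
  have hEB : ∀ w ∈ E, B w ∈ E := fun w hw => by
    rw [Module.End.mem_eigenspace_iff] at hw ⊢
    rw [← map_smul, ← hw]
    exact sub_eq_zero.1 ((hAB w).trans (by simp [hα, hβ]))
  have : Nontrivial E := Submodule.nontrivial_iff_ne_bot.2 ha
  obtain ⟨c, hc⟩ := Module.End.exists_eigenvalue (B.restrict hEB)
  obtain ⟨u, hu⟩ := hc.exists_hasEigenvector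
  exact ⟨u, a, c, fun h => hu.2 (Subtype.ext h), Module.End.mem_eigenspace_iff.1 u.2,
    congrArg Subtype.val hu.apply_eq_smul⟩

namespace Grading

variable {G : Type*} [CommRing G] [IsDomain G] [Algebra ℂ G] {S : Grading G}

/-- The dimension of the degree `n + 2` part of the ideal of a regular pair. -/
lemma IsStandard.finrank_pairPiece (h : S.IsStandard) {u x : G} (hu : u ∈ S.piece 1)
    (hx : x ∈ S.piece 1) (hu0 : u ≠ 0) (hx0 : x ≠ 0) (hreg : ∀ z, u ∣ x * z → u ∣ z) (n : ℕ) :
    Module.finrank ℂ (S.pairPiece u x (n + 2)) + Module.finrank ℂ (S.piece n) =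
      2 * Module.finrank ℂ (S.piece (n + 1)) := by
  have : Module.Finite ℂ (S.piece (n + 1)) := Module.Finite.iff_fg.2 (h.piece_fg S _)
  have : Module.Finite ℂ (S.piece n) := Module.Finite.iff_fg.2 (h.piece_fg S _)
  have hdim : ∀ {a : G}, a ≠ 0 → ∀ P : Submodule ℂ G,
      Module.finrank ℂ (P.map (LinearMap.mulLeft ℂ a)) = Module.finrank ℂ P := fun ha P =>
    (Submodule.equivMapOfInjective _ (fun _ _ h => mul_left_cancel₀ ha h) P).finrank_eq.symm
  have hinf : (S.piece (n + 1)).map (LinearMap.mulLeft ℂ u) ⊓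
      (S.piece (n + 1)).map (LinearMap.mulLeft ℂ x) =
        (S.piece n).map (LinearMap.mulLeft ℂ (u * x)) := by
    refine le_antisymm ?_ ?_
    · rintro _ ⟨⟨a, ha, rfl⟩, c, hc, hca⟩
      simp only [LinearMap.mulLeft_apply] at hca ⊢
      obtain ⟨w, rfl⟩ := hreg c ⟨a, hca⟩
      refine ⟨S.pr n w, S.pr_mem n w, ?_⟩
      have h1 := S.pr_self hc
      rw [S.pr_mul_left hu, if_pos (by omega), Nat.add_sub_cancel] at h1
      rw [LinearMap.mulLeft_apply, ← hca, ← h1, mul_left_comm, mul_assoc]
    · rintro _ ⟨w, hw, rfl⟩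
      refine ⟨⟨x * w, by rw [add_comm n 1]; exact S.mul_mem hx hw, ?_⟩,
        u * w, by rw [add_comm n 1]; exact S.mul_mem hu hw, ?_⟩
      · simp only [LinearMap.mulLeft_apply]; ring
      · simp only [LinearMap.mulLeft_apply]; ring
  have h1 := Submodule.finrank_sup_add_finrank_inf_eq
    ((S.piece (n + 1)).map (LinearMap.mulLeft ℂ u)) ((S.piece (n + 1)).map (LinearMap.mulLeft ℂ x))
  rw [hinf, hdim hu0, hdim hx0, hdim (mul_ne_zero hu0 hx0), ← two_mul] at h1
  exact h1

/-- If there are no new generators in degree three, any form of degree one is part of a pair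
without new generators in degree three. -/
lemma IsReduction.exists_pair [IsIntegrallyClosed G] {ℓ : Fin 2 → G} {N : ℕ}
    (h : S.IsReduction ℓ N) (h3 : S.piece 3 ≤ S.pairPiece (ℓ 0) (ℓ 1) 3) {u : G}
    (hu : u ∈ S.piece 1) (hu0 : u ≠ 0) :
    ∃ t : ℂ, S.piece 3 ≤ S.pairPiece u (ℓ 1 - t • ℓ 0) 3 := by
  classical
  let : Algebra (Pol 2) G := (MvPolynomial.aeval (R := ℂ) ℓ).toRingHom.toAlgebra
  have : IsScalarTower ℂ (Pol 2) G :=
    IsScalarTower.of_algebraMap_eq fun c => ((MvPolynomial.aeval (R := ℂ) ℓ).commutes c).symm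
  have hXl : ∀ l, algebraMap (Pol 2) G (MvPolynomial.X l) = ℓ l := fun l =>
    MvPolynomial.aeval_X ℓ l
  obtain ⟨ι, _, deg, b, hb, -⟩ := h.exists_basis hXl
  have : Module.Finite (Pol 2) G := Module.Finite.of_basis b
  -- a homogeneous polynomial in the two forms divisible by `u`
  obtain ⟨a, ha, ha0⟩ := Submodule.exists_mem_ne_zero_of_ne_bot
    (Ideal.comap_ne_bot_of_integral_mem (R := Pol 2) hu0 (Ideal.mem_span_singleton_self u)
      (Algebra.IsIntegral.isIntegral u))
  obtain ⟨e, he⟩ : ∃ e, MvPolynomial.homogeneousComponent e a ≠ 0 := by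
    by_contra hne
    push Not at hne
    exact ha0 (by rw [← MvPolynomial.sum_homogeneousComponent a, Finset.sum_eq_zero fun i _ => hne i])
  set a' := MvPolynomial.homogeneousComponent e a with ha'
  have hhom : a'.IsHomogeneous e := MvPolynomial.homogeneousComponent_isHomogeneous e a
  have hXmem : ∀ l, algebraMap (Pol 2) G (MvPolynomial.X l) ∈ S.piece 1 := fun l => by
    rw [hXl]; exact h.mem l
  have hdvd : u ∣ algebraMap (Pol 2) G a' := by
    obtain ⟨w, hw⟩ := Ideal.mem_span_singleton'.1 (Ideal.mem_comap.1 ha)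
    have h1 := congrArg (S.pr e) hw
    rw [pr_algebraMap S hXmem, S.pr_mul_right hu] at h1
    rw [← h1]
    split_ifs
    · exact dvd_mul_left _ _
    · exact dvd_zero _
  -- a point where it does not vanish
  obtain ⟨c, hc⟩ : ∃ c : Fin 2 → ℂ, MvPolynomial.eval c (MvPolynomial.X 0 * a') ≠ 0 := by
    by_contra hne
    push Not at hne
    exact mul_ne_zero (MvPolynomial.X_ne_zero 0) he
      (MvPolynomial.funext fun c => by rw [hne c, map_zero])
  rw [map_mul, MvPolynomial.eval_X] at hc
  have hc0 : c 0 ≠ 0 := left_ne_zero_of_mul hc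
  refine ⟨c 1 / c 0, ?_⟩
  set x := ℓ 1 - (c 1 / c 0) • ℓ 0 with hxdef
  have hx : x ∈ S.piece 1 := sub_mem (h.mem 1) (Submodule.smul_mem _ _ (h.mem 0))
  have hx0 : x ≠ 0 := fun h0 => by
    have h1 := Fintype.linearIndependent_iff.1 h.indep ![-(c 1 / c 0), 1]
      (by simpa [Fin.sum_univ_two, hxdef, sub_eq_add_neg, add_comm] using h0) 1
    simp at h1
  set J := Ideal.span ({u, x} : Set G) with hJ
  -- a power of the irrelevant ideal is in the ideal of the new pair
  have hmk : ∀ l, Ideal.Quotient.mk J (ℓ l) = (c l / c 0) • Ideal.Quotient.mk J (ℓ 0) := by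
    intro l
    fin_cases l
    · simp [div_self hc0]
    · rw [← Ideal.Quotient.mkₐ_eq_mk ℂ, ← map_smul, Ideal.Quotient.mkₐ_eq_mk, Ideal.Quotient.eq]
      exact Ideal.subset_span (by simp [hxdef])
  have hl0 : ℓ 0 ∈ J.radical := by
    refine ⟨e, ?_⟩
    have h1 : Ideal.Quotient.mkₐ ℂ J (MvPolynomial.aeval ℓ a') =
        algebraMap ℂ (G ⧸ J) (MvPolynomial.eval (fun l => c l / c 0) a') *
          Ideal.Quotient.mk J (ℓ 0) ^ e := by
      rw [← AlgHom.comp_apply, MvPolynomial.comp_aeval, a'.as_sum, map_sum, map_sum, map_sum,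
        Finset.sum_mul]
      refine Finset.sum_congr rfl fun d hd => ?_
      have hdeg : d 0 + d 1 = e := by
        have h2 := hhom (MvPolynomial.mem_support_iff.1 hd)
        simpa [Finsupp.weight_apply, Finsupp.sum_fintype, Fin.sum_univ_two] using h2
      rw [MvPolynomial.aeval_monomial, MvPolynomial.eval_monomial,
        Finsupp.prod_fintype _ _ (fun i => pow_zero _),
        Finsupp.prod_fintype _ _ (fun i => pow_zero _), Fin.prod_univ_two, Fin.prod_univ_two]
      simp only [Ideal.Quotient.mkₐ_eq_mk]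
      rw [hmk 1, div_self hc0, one_pow, one_mul, Algebra.smul_def, ← hdeg, pow_add, map_mul,
        map_pow]
      ring
    have h2 : Ideal.Quotient.mkₐ ℂ J (MvPolynomial.aeval ℓ a') = 0 := by
      rw [Ideal.Quotient.mkₐ_eq_mk, Ideal.Quotient.eq_zero_iff_mem]
      exact Ideal.mem_of_dvd _ hdvd (Ideal.subset_span (by simp))
    have hne : MvPolynomial.eval (fun l => c l / c 0) a' ≠ 0 := fun h0 => by
      refine hc ?_
      have h3 : MvPolynomial.eval c a' =
          c 0 ^ e * MvPolynomial.eval (fun l => c l / c 0) a' := by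
        rw [a'.as_sum, map_sum, map_sum, Finset.mul_sum]
        refine Finset.sum_congr rfl fun d hd => ?_
        have hdeg : d 0 + d 1 = e := by
          have h2 := hhom (MvPolynomial.mem_support_iff.1 hd)
          simpa [Finsupp.weight_apply, Finsupp.sum_fintype, Fin.sum_univ_two] using h2
        rw [MvPolynomial.eval_monomial, MvPolynomial.eval_monomial,
          Finsupp.prod_fintype _ _ (fun i => pow_zero _),
          Finsupp.prod_fintype _ _ (fun i => pow_zero _), Fin.prod_univ_two, Fin.prod_univ_two,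
          ← hdeg, div_pow, div_pow, pow_add]
        field_simp
      rw [h3, h0, mul_zero, mul_zero]
    rw [h2, eq_comm] at h1
    rw [← Ideal.Quotient.eq_zero_iff_mem, map_pow]
    exact (IsUnit.mul_right_eq_zero ((IsUnit.mk0 _ hne).map _)).1 h1
  have hl1 : ℓ 1 ∈ J.radical := by
    rw [show ℓ 1 = x + (c 1 / c 0) • ℓ 0 by simp [hxdef]]
    refine add_mem (Ideal.le_radical (Ideal.subset_span (by simp))) ?_
    rw [Algebra.smul_def]
    exact Ideal.mul_mem_left _ _ hl0
  have hrad : ∀ a ∈ S.piece 1, a ∈ J.radical := fun a ha => by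
    refine Ideal.radical_idem J ▸ (⟨N + 1, ?_⟩ : a ∈ J.radical.radical)
    have h1 := S.pow_mem ha (N + 1)
    rw [mul_one] at h1
    exact Ideal.span_le.2 (by simp [Set.insert_subset_iff, hl0, hl1]) (h.mem_span _ h1)
  obtain ⟨k, hk⟩ : ∃ k, ∀ a ∈ S.piece k, a ∈ J := by
    obtain ⟨s, hs⟩ := h.fin
    set I := Ideal.span (s : Set G) with hI
    have hIrad : I ≤ J.radical :=
      Ideal.span_le.2 fun a ha => hrad a (hs ▸ Submodule.subset_span ha)
    obtain ⟨k, hk⟩ := Ideal.exists_pow_le_of_le_radical_of_fg hIrad ⟨s, rfl⟩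
    refine ⟨k, fun a ha => hk ?_⟩
    suffices ∀ n, ∀ a ∈ S.piece n, a ∈ I ^ n from this k a ha
    intro n
    induction n with
    | zero => simp
    | succ n ih =>
      intro a ha
      refine Submodule.mul_induction_on (h.gen n ha) (fun p hp q hq => ?_) fun p q hp hq =>
        Ideal.add_mem _ hp hq
      rw [pow_succ']
      refine Ideal.mul_mem_mul ?_ (ih q hq)
      rw [← hs] at hp
      exact Submodule.span_le_restrictScalars ℂ G (s : Set G) hp
  have hreg : ∀ z, u ∣ x * z → u ∣ z :=
    h.toIsStandard.dvd_of_dvd_mul S hu hx hu0 (h.not_le_span u) hk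
  -- compare dimensions
  have : Module.Finite ℂ (S.piece 3) := Module.Finite.iff_fg.2 (h.toIsStandard.piece_fg S _)
  have h1 := h.toIsStandard.finrank_pairPiece hu hx hu0 hx0 hreg 1
  have h2 := h.toIsStandard.finrank_pairPiece (h.mem 0) (h.mem 1) (h.ne_zero 0) (h.ne_zero 1)
    h.regular 1
  refine (Submodule.eq_of_le_of_finrank_le (S.pairPiece_le hu hx 3) ?_).ge
  have h5 : Module.finrank ℂ (S.piece 3) ≤ Module.finrank ℂ (S.pairPiece (ℓ 0) (ℓ 1) 3) := by
    refine le_of_eq (congrArg (fun P : Submodule ℂ G => Module.finrank ℂ P) ?_)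
    exact le_antisymm h3 (S.pairPiece_le (h.mem 0) (h.mem 1) 3)
  simp only [Nat.reduceAdd] at h1 h2
  omega

end Grading

end Vale.Agent.P266
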