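import Vale.Agent.P266.Cone.Local
import Vale.Agent.P266.Cone.Pairs

/-!
# P266: surfaces with normal tangent cone

A surface with projective derivation module is regular at a point with normal tangent cone, when
the reduction number is at most five or some derivation has a nonzero linear part.
-/

noncomputable section

namespace Vale.Agent.P266

namespace Grading

variable {G : Type*} [CommRing G] [IsDomain G] [IsIntegrallyClosed G] [Algebra ℂ G]
  {S : Grading G} {ℓ : Fin 2 → G} {N : ℕ}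

/-- With a nonzero derivation of degree minus one and no new generators in degree two, degree one
is spanned by the two forms. -/
lemma IsReduction.piece_one_le (h : S.IsReduction ℓ N) (θ : Derivation ℂ G G)
    (hθ : ∀ n, ∀ x ∈ S.piece (n + 1), θ x ∈ S.piece n) {x₀ : G} (hx₀ : x₀ ∈ S.piece 1)
    (hne : θ x₀ ≠ 0) (h2 : S.piece 2 ≤ S.pairPiece (ℓ 0) (ℓ 1) 2) :
    S.piece 1 ≤ Submodule.span ℂ (Set.range ℓ) := by
  classical
  -- the values of `θ` in degree one are scalars
  have hsc : ∀ a ∈ S.piece 1, ∃ c : ℂ, θ a = algebraMap ℂ G c := fun a ha =>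
    S.zero_eq _ (by simpa using hθ 0 a ha)
  obtain ⟨c₀, hc₀⟩ := hsc _ (h.mem 0)
  obtain ⟨c₁, hc₁⟩ := hsc _ (h.mem 1)
  obtain ⟨d, hd⟩ := hsc _ hx₀
  -- the value of `θ` on `x₀` forces a nonzero value on one of the two forms
  have hℓ : c₀ ≠ 0 ∨ c₁ ≠ 0 := by
    by_contra hcon
    push Not at hcon
    let : Algebra (Pol 2) G := (MvPolynomial.aeval (R := ℂ) ℓ).toRingHom.toAlgebra
    have : IsScalarTower ℂ (Pol 2) G :=
      IsScalarTower.of_algebraMap_eq fun c => ((MvPolynomial.aeval (R := ℂ) ℓ).commutes c).symm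
    have hXl : ∀ l, algebraMap (Pol 2) G (MvPolynomial.X l) = ℓ l := fun l =>
      MvPolynomial.aeval_X ℓ l
    obtain ⟨ι, _, deg, b, hb, -⟩ := h.exists_basis hXl
    have : Module.Finite (Pol 2) G := Module.Finite.of_basis b
    refine hne (IsFractionRing.injective G (FractionRing G) ?_)
    rw [map_zero]
    refine derA_eq_zero_of_pol (d := 2) (K := FractionRing G)
      ((Algebra.linearMap G (FractionRing G)).compDer θ) (fun p => ?_) x₀
    have hl : ∀ l, θ (ℓ l) = 0 := by
      intro l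
      fin_cases l
      · simp [hc₀, hcon.1]
      · simp [hc₁, hcon.2]
    simp [der_chain θ p, hXl, hl]
  -- a form killed by `θ` and one sent to one
  obtain ⟨u, x, hu, hx, hu0, hθu, hθx, hsp, hsp'⟩ : ∃ u x, u ∈ S.piece 1 ∧ x ∈ S.piece 1 ∧ u ≠ 0 ∧
      θ u = 0 ∧ θ x = 1 ∧ u ∈ Submodule.span ℂ (Set.range ℓ) ∧
      x ∈ Submodule.span ℂ (Set.range ℓ) ∧
      S.pairPiece (ℓ 0) (ℓ 1) 2 ≤ S.pairPiece u x 2 := by
    have hsmul : ∀ (c : ℂ) (a : G), θ (c • a) = c • θ a := fun c a => θ.map_smul c a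
    have hmem : ∀ l, ℓ l ∈ Submodule.span ℂ (Set.range ℓ) := fun l =>
      Submodule.subset_span ⟨l, rfl⟩
    rcases hℓ with hc | hc
    · refine ⟨ℓ 1 - (c₁ / c₀) • ℓ 0, c₀⁻¹ • ℓ 0, sub_mem (h.mem 1) (Submodule.smul_mem _ _ (h.mem 0)),
        Submodule.smul_mem _ _ (h.mem 0), fun h0 => ?_, ?_, ?_,
        sub_mem (hmem 1) (Submodule.smul_mem _ _ (hmem 0)), Submodule.smul_mem _ _ (hmem 0), ?_⟩
      · have h1 := Fintype.linearIndependent_iff.1 h.indep ![-(c₁ / c₀), 1]
          (by simpa [Fin.sum_univ_two, sub_eq_add_neg, add_comm] using h0) 1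
        simp at h1
      · rw [map_sub, hsmul, hc₁, hc₀, Algebra.smul_def, ← map_mul, div_mul_cancel₀ _ hc, sub_self]
      · rw [hsmul, hc₀, Algebra.smul_def, ← map_mul, inv_mul_cancel₀ hc, map_one]
      · intro w hw
        obtain ⟨a, ha, b, hb, rfl⟩ := S.mem_pairPiece_succ.1 hw
        refine S.mem_pairPiece_succ.2 ⟨b, hb, c₀ • a + c₁ • b,
          add_mem (Submodule.smul_mem _ _ ha) (Submodule.smul_mem _ _ hb), ?_⟩
        simp only [sub_mul, smul_mul_assoc, mul_add, mul_smul_comm, smul_smul,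
          mul_inv_cancel₀ hc, one_smul]
        rw [show c₁ * c₀⁻¹ = c₁ / c₀ by rw [div_eq_mul_inv]]
        abel
    · refine ⟨ℓ 0 - (c₀ / c₁) • ℓ 1, c₁⁻¹ • ℓ 1, sub_mem (h.mem 0) (Submodule.smul_mem _ _ (h.mem 1)),
        Submodule.smul_mem _ _ (h.mem 1), fun h0 => ?_, ?_, ?_,
        sub_mem (hmem 0) (Submodule.smul_mem _ _ (hmem 1)), Submodule.smul_mem _ _ (hmem 1), ?_⟩
      · have h1 := Fintype.linearIndependent_iff.1 h.indep ![1, -(c₀ / c₁)]
          (by simpa [Fin.sum_univ_two, sub_eq_add_neg, add_comm] using h0) 0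
        simp at h1
      · rw [map_sub, hsmul, hc₁, hc₀, Algebra.smul_def, ← map_mul, div_mul_cancel₀ _ hc, sub_self]
      · rw [hsmul, hc₁, Algebra.smul_def, ← map_mul, inv_mul_cancel₀ hc, map_one]
      · intro w hw
        obtain ⟨a, ha, b, hb, rfl⟩ := S.mem_pairPiece_succ.1 hw
        refine S.mem_pairPiece_succ.2 ⟨a, ha, c₀ • a + c₁ • b,
          add_mem (Submodule.smul_mem _ _ ha) (Submodule.smul_mem _ _ hb), ?_⟩
        simp only [sub_mul, smul_mul_assoc, mul_add, mul_smul_comm, smul_smul,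
          mul_inv_cancel₀ hc, one_smul]
        rw [show c₀ * c₁⁻¹ = c₀ / c₁ by rw [div_eq_mul_inv]]
        abel
  obtain ⟨hxsp, hle⟩ := hsp'
  let V : Submodule ℂ G := S.piece 1 ⊓ LinearMap.ker θ.toLinearMap
  -- products of elements of `V` are multiples of `u` by elements of `V`
  have hVV : ∀ v ∈ V, ∀ w ∈ V, ∃ a ∈ V, v * w = u * a := by
    rintro v ⟨hv, hv0⟩ w ⟨hw, hw0⟩
    replace hv0 : θ v = 0 := hv0
    replace hw0 : θ w = 0 := hw0
    obtain ⟨a, ha, b, hb, hab⟩ := S.mem_pairPiece_succ.1 (hle (h2 (S.mul_mem hv hw)))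
    obtain ⟨α, hα⟩ := hsc a ha
    obtain ⟨β, hβ⟩ := hsc b hb
    have h1 := congrArg θ hab
    simp only [map_add, Derivation.leibniz, smul_eq_mul, hθu, hθx, hv0, hw0, mul_zero, add_zero,
      mul_one, hα, hβ] at h1
    have h3 := congrArg θ h1
    simp only [map_add, Derivation.leibniz, smul_eq_mul, hθu, hθx, Derivation.map_algebraMap,
      map_zero, mul_zero, add_zero, zero_add, mul_one, hβ] at h3
    have hβ0 : β = 0 := by
      rw [← map_add] at h3
      have h4 := (injective_iff_map_eq_zero _).1 (algebraMap ℂ G).injective _ h3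
      rw [← two_mul, mul_eq_zero] at h4
      exact h4.resolve_left two_ne_zero
    rw [hβ0, map_zero, mul_zero, zero_add] at h1
    have hb' : b = -(u * algebraMap ℂ G α) := eq_neg_of_add_eq_zero_right h1
    refine ⟨a - x * algebraMap ℂ G α, ⟨sub_mem ha ?_, ?_⟩, ?_⟩
    · have h5 := S.mul_mem hx (S.algebraMap_mem α)
      rwa [add_zero] at h5
    · show θ _ = 0
      rw [map_sub, Derivation.leibniz, hθx, Derivation.map_algebraMap, smul_zero, zero_add,
        smul_eq_mul, mul_one, hα, sub_self]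
    · rw [← hab, hb']
      ring
  -- hence `V` is the line of `u`
  have hV : ∀ v ∈ V, v ∈ Submodule.span ℂ (Set.range ℓ) := by
    intro v hv
    let K := FractionRing G
    let j : G →+* K := algebraMap G K
    have hj0 : j u ≠ 0 := (map_ne_zero_iff _ (IsFractionRing.injective G K)).2 hu0
    have : Module.Finite ℂ (S.piece 1) := Module.Finite.iff_fg.2 h.fin
    have hVfg : V.FG := Module.Finite.iff_fg.1 (Submodule.finiteDimensional_of_le inf_le_left)
    obtain ⟨s, hs⟩ := hVfg
    let I : Submodule G K := Submodule.span G (j '' (s : Set G))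
    have hIV : ∀ a ∈ V, j a ∈ I := fun a ha => by
      rw [← hs] at ha
      induction ha using Submodule.span_induction with
      | mem a ha => exact Submodule.subset_span ⟨a, ha, rfl⟩
      | zero => simp
      | add a c _ _ ha hc => rw [map_add]; exact add_mem ha hc
      | smul r a _ ha =>
        rw [Algebra.smul_def, map_mul, ← smul_eq_mul, algebraMap_smul]
        exact I.smul_mem (algebraMap ℂ G r) ha
    have hint : IsIntegral G (j v / j u) := by
      refine isIntegral_of_smul_mem_submodule I (fun hI => ?_)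
        (Submodule.fg_span (s.finite_toSet.image _)) _ fun w hw => ?_
      · have h1 := hIV u ⟨hu, hθu⟩
        rw [hI, Submodule.mem_bot] at h1
        exact hj0 h1
      · induction hw using Submodule.span_induction with
        | mem w hw =>
          obtain ⟨a, ha, rfl⟩ := hw
          obtain ⟨c, hc, hac⟩ := hVV v hv a (hs ▸ Submodule.subset_span ha)
          have h1 : (j v / j u) • j a = j c := by
            rw [smul_eq_mul, div_mul_eq_mul_div, ← map_mul, hac, map_mul,
              mul_div_cancel_left₀ _ hj0]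
          rw [h1]
          exact hIV c hc
        | zero => simp
        | add a c _ _ ha hc => rw [smul_add]; exact add_mem ha hc
        | smul r a _ ha => rw [smul_comm]; exact I.smul_mem r ha
    obtain ⟨g, hg⟩ := IsIntegrallyClosed.isIntegral_iff.1 hint
    have hvg : v = u * g := IsFractionRing.injective G K (by
      rw [map_mul, hg, mul_div_cancel₀ _ hj0])
    have h1 := congrArg (S.pr 1) hvg
    rw [S.pr_self hv.1, S.pr_mul_left hu, if_pos le_rfl, Nat.sub_self] at h1
    obtain ⟨c, hc⟩ := S.zero_eq _ (S.pr_mem 0 g)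
    rw [h1, hc, mul_comm, ← Algebra.smul_def]
    exact Submodule.smul_mem _ _ hsp
  intro a ha
  obtain ⟨c, hc⟩ := hsc a ha
  have hmem : a - c • x ∈ V := by
    refine ⟨sub_mem ha (Submodule.smul_mem _ _ hx), ?_⟩
    show θ (a - c • x) = 0
    rw [map_sub, Derivation.map_smul, hθx, hc, Algebra.smul_def, mul_one, sub_self]
  have h1 := add_mem (hV _ hmem) (Submodule.smul_mem _ c hxsp)
  rwa [sub_add_cancel] at h1

end Grading

variable {A : Type*} [CommRing A] [IsDomain A] [Algebra ℂ A] [Algebra.FiniteType ℂ A]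
  (m : Ideal A) [m.IsMaximal]

omit [IsDomain A] in
lemma isStandard_coneGrading : (coneGrading m).IsStandard where
  gen n := (conePiece_succ_le m n).trans <| Submodule.span_le.2 <| by
    rintro _ ⟨a, ha, b, hb, rfl⟩
    exact Submodule.mul_mem_mul ha hb
  fin := by
    have hnoe : IsNoetherianRing A := Algebra.FiniteType.isNoetherianRing ℂ A
    obtain ⟨s, hs⟩ := IsNoetherian.noetherian m
    have hsm : ∀ a ∈ s, a ∈ m := fun a ha => hs ▸ Submodule.subset_span ha
    classical
    refine ⟨s.image (cl m 1), le_antisymm (Submodule.span_le.2 ?_) ?_⟩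
    · intro x hx
      obtain ⟨a, ha, rfl⟩ := Finset.mem_image.1 hx
      exact ⟨a, by rw [pow_one]; exact hsm a ha, rfl⟩
    · rintro _ ⟨z, hz, rfl⟩
      rw [pow_one, ← hs] at hz
      obtain ⟨f, -, rfl⟩ := Submodule.mem_span_finset.1 hz
      choose c hc using exists_scalar m
      rw [cl_sum]
      · refine sum_mem fun a ha => ?_
        have h1 : a ∈ m ^ 1 := by rw [pow_one]; exact hsm a ha
        have h2 : cl m 1 (f a • a) = c (f a) • cl m 1 a := by
          rw [← cl_smul h1, cl_eq_iff (by rw [pow_one]; exact m.mul_mem_left _ (hsm a ha))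
            (by rw [Algebra.smul_def]; exact Ideal.mul_mem_left _ _ h1), smul_eq_mul,
            Algebra.smul_def, ← sub_mul, sq]
          exact Ideal.mul_mem_mul (hc (f a)) (hsm a ha)
        rw [h2]
        exact Submodule.smul_mem _ _ (Submodule.subset_span (by
          rw [Finset.coe_image]; exact ⟨a, ha, rfl⟩))
      · intro a ha
        rw [pow_one]
        exact m.mul_mem_left _ (hsm a ha)

omit [IsDomain A] in
lemma isReduction_coneGrading (hd : ringKrullDim (Localization.AtPrime m) = 2) (g : Fin 2 → A)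
    (hgm : ∀ l, g l ∈ m) (N : ℕ)
    (hred : m ^ (N + 1) ≤ Ideal.span (Set.range g) * m ^ N ⊔ m ^ (N + 2)) :
    (coneGrading m).IsReduction (fun l => cl m 1 (g l)) N where
  toIsStandard := isStandard_coneGrading m
  mem l := ⟨g l, by rw [pow_one]; exact hgm l, rfl⟩
  succ_le := by
    have hg1 : ∀ l, g l ∈ m ^ 1 := fun l => by rw [pow_one]; exact hgm l
    intro n hn
    induction n, hn using Nat.le_induction with
    | base =>
      rintro _ ⟨z, hz, rfl⟩
      obtain ⟨w, hw, r, hr, rfl⟩ := Submodule.mem_sup.1 (hred hz)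
      suffices w ∈ m ^ (N + 1) ∧
          cl m (N + 1) w ∈ (coneGrading m).pairPiece (cl m 1 (g 0)) (cl m 1 (g 1)) (N + 1) by
        rw [cl_add this.1 (Ideal.pow_le_pow_right (Nat.le_succ _) hr),
          (cl_eq_zero_iff (Ideal.pow_le_pow_right (Nat.le_succ _) hr)).2 hr, add_zero]
        exact this.2
      refine Submodule.mul_induction_on hw (fun p hp q hq => ?_) fun a b ha hb =>
        ⟨add_mem ha.1 hb.1, by rw [cl_add ha.1 hb.1]; exact add_mem ha.2 hb.2⟩
      obtain ⟨c, rfl⟩ := (Submodule.mem_span_range_iff_exists_fun A).1 hp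
      have hc : ∀ l, c l * q ∈ m ^ N := fun l => Ideal.mul_mem_left _ _ hq
      have hprod : ∀ l, g l * (c l * q) ∈ m ^ (N + 1) := fun l => by
        rw [add_comm, pow_add]; exact Ideal.mul_mem_mul (hg1 l) (hc l)
      rw [show (∑ l, c l • g l) * q = g 0 * (c 0 * q) + g 1 * (c 1 * q) by
        simp only [Fin.sum_univ_two, smul_eq_mul]; ring]
      refine ⟨add_mem (hprod 0) (hprod 1), (coneGrading m).mem_pairPiece_succ.2
        ⟨cl m N (c 0 * q), ⟨_, hc 0, rfl⟩, cl m N (c 1 * q), ⟨_, hc 1, rfl⟩, ?_⟩⟩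
      rw [cl_add (hprod 0) (hprod 1), cl_mul (hg1 0) (hc 0), cl_mul (hg1 1) (hc 1), add_comm 1 N]
    | succ k hk ih =>
      intro x hx
      refine Submodule.mul_induction_on ((isStandard_coneGrading m).gen _ hx)
        (fun p hp q hq => ?_) fun a b ha hb => add_mem ha hb
      obtain ⟨a, ha, b, hb, rfl⟩ := (coneGrading m).mem_pairPiece_succ.1 (ih hq)
      refine (coneGrading m).mem_pairPiece_succ.2 ⟨p * a, ?_, p * b, ?_, by ring⟩
      · rw [add_comm k 1]; exact (coneGrading m).mul_mem hp ha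
      · rw [add_comm k 1]; exact (coneGrading m).mul_mem hp hb
  indep := by
    rw [Fintype.linearIndependent_iff]
    intro c hc
    simp only [Fin.sum_univ_two] at hc
    have hg1 : ∀ l, g l ∈ m ^ 1 := fun l => by rw [pow_one]; exact hgm l
    have hsm : ∀ l, c l • g l ∈ m ^ 1 := fun l => by
      rw [Algebra.smul_def]; exact Ideal.mul_mem_left _ _ (hg1 l)
    rw [← cl_smul (hg1 0), ← cl_smul (hg1 1), ← cl_add (hsm 0) (hsm 1),
      cl_eq_zero_iff (add_mem (hsm 0) (hsm 1))] at hc
    by_contra hne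
    push Not at hne
    obtain ⟨l, hl⟩ := hne
    -- then one of the two elements would generate a power of the maximal ideal
    obtain ⟨k, hk⟩ : ∃ k, ∀ i, g i ∈ Ideal.span {g k} ⊔ m ^ 2 := by
      have key : ∀ a b : Fin 2, c b ≠ 0 → c a • g a + c b • g b ∈ m ^ 2 →
          g b ∈ Ideal.span {g a} ⊔ m ^ 2 := by
        intro a b hb hab
        have h1 : g b = (-((c b)⁻¹ * c a)) • g a + (c b)⁻¹ • (c a • g a + c b • g b) := by
          rw [smul_add, smul_smul, smul_smul, inv_mul_cancel₀ hb, one_smul, neg_smul,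
            neg_add_cancel_left]
        rw [h1]
        refine Submodule.add_mem_sup ?_ ?_
        · rw [Algebra.smul_def]
          exact Ideal.mul_mem_left _ _ (Ideal.mem_span_singleton_self _)
        · rw [Algebra.smul_def]
          exact Ideal.mul_mem_left _ _ hab
      fin_cases l
      · refine ⟨1, fun i => ?_⟩
        fin_cases i
        · exact key 1 0 hl (by rwa [add_comm])
        · exact Ideal.mem_sup_left (Ideal.mem_span_singleton_self _)
      · refine ⟨0, fun i => ?_⟩
        fin_cases i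
        · exact Ideal.mem_sup_left (Ideal.mem_span_singleton_self _)
        · exact key 0 1 hl hc
    refine not_pow_le_span_singleton m hd (hgm k) (N + 1) (pow_le_map m (hred.trans ?_))
    refine sup_le ?_ le_sup_right
    rw [Ideal.mul_le]
    intro p hp q hq
    have hp' : p ∈ Ideal.span {g k} ⊔ m ^ 2 := by
      refine Ideal.span_le.2 ?_ hp
      rintro _ ⟨i, rfl⟩
      exact hk i
    obtain ⟨a, ha, b, hb, rfl⟩ := Submodule.mem_sup.1 hp'
    rw [add_mul]
    refine Submodule.add_mem_sup (Ideal.mul_mem_right _ _ ha) ?_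
    rw [show N + 1 + 1 = 2 + N by omega, pow_add]
    exact Ideal.mul_mem_mul hb hq

variable [IsDomain (Cone m)] [IsIntegrallyClosed (Cone m)]

omit [IsDomain A] [IsDomain (Cone m)] [IsIntegrallyClosed (Cone m)] in
/-- No new generators in degree `n + 1` gives the corresponding inclusion of ideals. -/
lemma pow_le_of_pairPiece (g : Fin 2 → A) (hgm : ∀ l, g l ∈ m) (n : ℕ)
    (h : (coneGrading m).piece (n + 1) ≤
      (coneGrading m).pairPiece (cl m 1 (g 0)) (cl m 1 (g 1)) (n + 1)) :
    m ^ (n + 1) ≤ Ideal.span (Set.range g) ⊔ m ^ (n + 1 + 1) := by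
  intro z hz
  obtain ⟨_, ⟨a, ha, rfl⟩, _, ⟨b, hb, rfl⟩, hab⟩ :=
    (coneGrading m).mem_pairPiece_succ.1 (h ⟨z, hz, rfl⟩)
  have hg1 : ∀ l, g l ∈ m ^ 1 := fun l => by rw [pow_one]; exact hgm l
  have h0 : g 0 * a ∈ m ^ (n + 1) := by rw [add_comm, pow_add]; exact Ideal.mul_mem_mul (hg1 0) ha
  have h1 : g 1 * b ∈ m ^ (n + 1) := by rw [add_comm, pow_add]; exact Ideal.mul_mem_mul (hg1 1) hb
  rw [cl_mul (hg1 0) ha, cl_mul (hg1 1) hb, add_comm 1 n, ← cl_add h0 h1,
    cl_eq_iff (add_mem h0 h1) hz] at hab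
  rw [show z = (g 0 * a + g 1 * b) - (g 0 * a + g 1 * b - z) by ring]
  exact Submodule.sub_mem _ (Submodule.mem_sup_left (add_mem
    (Ideal.mul_mem_right _ _ (Ideal.subset_span ⟨0, rfl⟩))
    (Ideal.mul_mem_right _ _ (Ideal.subset_span ⟨1, rfl⟩)))) (Submodule.mem_sup_right hab)

omit [IsDomain A] in
/-- A derivation not vanishing at a point with normal tangent cone makes the surface regular. -/
lemma regular_of_lower (hd : ringKrullDim (Localization.AtPrime m) = 2) (g : Fin 2 → A)
    (hgm : ∀ l, g l ∈ m) (N : ℕ) (hR : (coneGrading m).IsReduction (fun l => cl m 1 (g l)) N)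
    (D : Derivation ℂ A A) {z : A} (hz : z ∈ m) (hDz : D z ∉ m) :
    IsRegularLocalRing (Localization.AtPrime m) := by
  have hEul : ∀ n, ∀ x ∈ (coneGrading m).piece n, eulerDer m x = n • x :=
    fun n x hx => eulerDer_apply m hx
  have hgq : ∀ l, g l ∈ Ideal.span (Set.range g) := fun l => Ideal.subset_span ⟨l, rfl⟩
  have hz1 : z ∈ m ^ (0 + 1) := by simpa using hz
  have hne : lowerDer m D (cl m (0 + 1) z) ≠ 0 := by
    rw [lowerDer_cl m D 0 hz1, Ne, cl_eq_zero_iff (by simp)]
    simpa using hDz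
  have h2 : (coneGrading m).piece 2 ≤
      (coneGrading m).pairPiece (cl m 1 (g 0)) (cl m 1 (g 1)) 2 := by
    by_contra h2
    obtain ⟨φ, -, hφ, hφ'⟩ := hR.der_eq (eulerDer m) hEul (lowerDer m D) 0
      (fun n x hx => lowerDer_mem m D hx) le_rfl h2
    exact hne (by rw [hφ' _ _ ⟨z, hz1, rfl⟩, hφ rfl, zero_mul, smul_zero])
  have hP1 := hR.piece_one_le (lowerDer m D) (fun n x hx => lowerDer_mem m D hx)
    ⟨z, hz1, rfl⟩ hne h2
  refine isRegularLocalRing_of_le m hd g hgm fun y hy => ?_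
  have hy1 : y ∈ m ^ 1 := by simpa using hy
  obtain ⟨c, hc⟩ := (Submodule.mem_span_range_iff_exists_fun ℂ).1 (hP1 ⟨y, hy1, rfl⟩)
  have hsm : ∀ l, c l • g l ∈ m ^ 1 := fun l => by
    rw [pow_one, Algebra.smul_def]; exact m.mul_mem_left _ (hgm l)
  have h1 : cl m 1 (∑ l, c l • g l) = cl m 1 y := by
    rw [cl_sum _ _ fun l _ => hsm l, ← hc]
    exact Finset.sum_congr rfl fun l _ => cl_smul (by simpa using hgm l) (c l)
  rw [cl_eq_iff (sum_mem fun l _ => hsm l) hy1] at h1
  rw [show y = ∑ l, c l • g l - (∑ l, c l • g l - y) by ring]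
  refine Submodule.sub_mem _ (Submodule.mem_sup_left (sum_mem fun l _ => ?_))
    (Submodule.mem_sup_right h1)
  rw [Algebra.smul_def]
  exact Ideal.mul_mem_left _ _ (hgq l)

/-- Derivations vanishing at the point force new generators in degree three. -/
lemma false_of_piece_three
    (hDer : Module.Projective A (Derivation ℂ A A))
    (hd : ringKrullDim (Localization.AtPrime m) = 2) (g : Fin 2 → A) (hgm : ∀ l, g l ∈ m) (N : ℕ)
    (hR : (coneGrading m).IsReduction (fun l => cl m 1 (g l)) N)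
    (hlow : ∀ D : Derivation ℂ A A, ∀ z ∈ m, D z ∈ m)
    (h3 : (coneGrading m).piece 3 ≤
      (coneGrading m).pairPiece (cl m 1 (g 0)) (cl m 1 (g 1)) 3) : False := by
  classical
  have hsh : ∀ D : Derivation ℂ A A, ∀ z ∈ m, D z ∈ m ^ (0 + 1) := fun D z hz => by
    simpa using hlow D z hz
  have hM3 := pow_le_map m (pow_le_of_pairPiece m g hgm 2 h3)
  obtain ⟨h, v, hh, hspan, -⟩ :=
    exists_det_not_mem m hDer hd g (radical_eq_maximalIdeal m hgm hM3)
  obtain ⟨η, hη⟩ := exists_scalar m h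
  have hη0 : η ≠ 0 := by
    rintro rfl
    exact hh (by simpa using hη)
  -- linear parts of all derivations are combinations of those of the frame
  have hlin : ∀ D : Derivation ℂ A A, ∃ γ : Fin 2 → ℂ, ∀ z ∈ m,
      cl m 1 (D z) = ∑ i, γ i • cl m 1 (v i z) := by
    intro D
    obtain ⟨c, hc⟩ := hspan D
    choose γ hγ using fun i => exists_scalar m (c i)
    refine ⟨fun i => η⁻¹ * γ i, fun z hz => ?_⟩
    have hmul : ∀ (a : A) (r : ℂ) (w : A), a - algebraMap ℂ A r ∈ m → w ∈ m →
        cl m 1 (a * w) = r • cl m 1 w := by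
      intro a r w hr hw
      rw [← cl_smul (by rwa [pow_one]),
        cl_eq_iff (by rw [pow_one]; exact m.mul_mem_left _ hw)
          (by rw [pow_one, Algebra.smul_def]; exact m.mul_mem_left _ hw), Algebra.smul_def,
        ← sub_mul, sq]
      exact Ideal.mul_mem_mul hr hw
    have h1 : η • cl m 1 (D z) = ∑ i, γ i • cl m 1 (v i z) := by
      rw [← hmul h η _ hη (hlow D z hz)]
      have h2 : h * D z = ∑ i, c i * v i z := by
        have h2 := congrArg (fun E : Derivation ℂ A A => E z) hc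
        simpa [der_sum_apply] using h2
      rw [h2, cl_sum _ _ fun i _ => by rw [pow_one]; exact m.mul_mem_left _ (hlow _ z hz)]
      exact Finset.sum_congr rfl fun i _ => hmul _ _ _ (hγ i) (hlow _ z hz)
    rw [← inv_smul_smul₀ hη0 (cl m 1 (D z)), h1, Finset.smul_sum]
    simp only [smul_smul]
  let W := (coneGrading m).piece 1
  have : Module.Finite ℂ W := Module.Finite.iff_fg.2 hR.fin
  have : Nontrivial W := ⟨⟨_, hR.mem 0⟩, 0, fun h0 => hR.ne_zero 0 (congrArg Subtype.val h0)⟩
  let L : Derivation ℂ A A → Module.End ℂ W := fun D =>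
    (shiftDer m D 0 (hsh D)).toLinearMap.restrict (p := W) (q := W)
      fun x hx => shiftDer_mem m D 0 (hsh D) hx
  have hL : ∀ (D : Derivation ℂ A A) (z : A) (hz : z ∈ m ^ 1),
      ((L D ⟨cl m 1 z, z, hz, rfl⟩ : W) : Cone m) = cl m 1 (D z) := fun D z hz =>
    shiftDer_cl m D 0 (hsh D) 1 hz
  have hLlin : ∀ D : Derivation ℂ A A, ∃ γ : Fin 2 → ℂ, ∀ w, L D w = ∑ i, γ i • L (v i) w := by
    intro D
    obtain ⟨γ, hγ⟩ := hlin D
    refine ⟨γ, ?_⟩
    rintro ⟨_, z, hz, rfl⟩
    refine Subtype.ext ?_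
    rw [hL D z hz, hγ z (by simpa using hz)]
    simp only [Fin.sum_univ_two, Submodule.coe_add, SetLike.val_smul]
    rw [hL (v 0) z hz, hL (v 1) z hz]
  obtain ⟨γ, hγ⟩ := hLlin ⁅v 0, v 1⁆
  obtain ⟨u, a, c, hu0, hAu, hBu⟩ := exists_common_eigenvector (L (v 0)) (L (v 1)) (γ 0) (γ 1)
    fun w => by
      have h1 := hγ w
      rw [Fin.sum_univ_two] at h1
      rw [← h1]
      obtain ⟨_, z, hz, rfl⟩ := w
      have hz' : z ∈ m := by simpa using hz
      have hv : ∀ i, v i z ∈ m ^ 1 := fun i => by simpa using hlow (v i) z hz'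
      refine Subtype.ext ?_
      rw [Submodule.coe_sub, hL _ z hz, Derivation.commutator_apply]
      have e1 : L (v 1) ⟨cl m 1 z, z, hz, rfl⟩ = ⟨cl m 1 (v 1 z), _, hv 1, rfl⟩ :=
        Subtype.ext (hL _ z hz)
      have e0 : L (v 0) ⟨cl m 1 z, z, hz, rfl⟩ = ⟨cl m 1 (v 0 z), _, hv 0, rfl⟩ :=
        Subtype.ext (hL _ z hz)
      rw [e1, e0, hL _ _ (hv 1), hL _ _ (hv 0), eq_comm, eq_sub_iff_add_eq, ← cl_add]
      · rw [sub_add_cancel]
      · exact sub_mem (by simpa using hlow (v 0) _ (by simpa using hv 1))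
          (by simpa using hlow (v 1) _ (by simpa using hv 0))
      · simpa using hlow (v 1) _ (by simpa using hv 0)
  obtain ⟨⟨_, zu, hzu, rfl⟩, rfl⟩ : ∃ u' : W, u' = u := ⟨u, rfl⟩
  have hzu' : zu ∈ m := by simpa using hzu
  have heig : ∀ D : Derivation ℂ A A, ∃ r : ℂ, D zu - algebraMap ℂ A r * zu ∈ m ^ 2 := by
    intro D
    obtain ⟨γ, hγ⟩ := hLlin D
    refine ⟨γ 0 * a + γ 1 * c, ?_⟩
    have h1 := congrArg Subtype.val (hγ ⟨cl m 1 zu, zu, hzu, rfl⟩)
    rw [hL D zu hzu, Fin.sum_univ_two, hAu, hBu, smul_smul, smul_smul, ← add_smul,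
      SetLike.val_smul, ← cl_smul hzu,
      cl_eq_iff (by simpa using hlow D zu hzu')
        (by rw [Algebra.smul_def]; exact Ideal.mul_mem_left _ _ hzu), Algebra.smul_def] at h1
    exact h1
  obtain ⟨t, ht⟩ := hR.exists_pair h3 (u := cl m 1 zu) ⟨zu, hzu, rfl⟩ fun h0 =>
    hu0 (Subtype.ext h0)
  let g' : Fin 2 → A := ![zu, g 1 - t • g 0]
  have hg'm : ∀ l, g' l ∈ m := Fin.forall_fin_two.2 ⟨by simpa [g'] using hzu', by
    simpa [g', Algebra.smul_def] using m.sub_mem (hgm 1) (m.mul_mem_left _ (hgm 0))⟩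
  have hcl : cl m 1 (g 1 - t • g 0) = cl m 1 (g 1) - t • cl m 1 (g 0) := by
    rw [eq_sub_iff_add_eq, ← cl_smul (by simpa using hgm 0), ← cl_add, sub_add_cancel]
    · simpa [g'] using hg'm 1
    · rw [pow_one, Algebra.smul_def]; exact m.mul_mem_left _ (hgm 0)
  have h3' : (coneGrading m).piece (2 + 1) ≤
      (coneGrading m).pairPiece (cl m 1 (g' 0)) (cl m 1 (g' 1)) (2 + 1) := by
    simpa [g', hcl] using ht
  refine false_of_orders m hDer hd g' hg'm (a := 2) (b := 1) le_rfl
    (pow_le_map m (pow_le_of_pairPiece m g' hg'm 2 h3')) (fun D => ?_) fun D => ?_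
  · obtain ⟨r, hr⟩ := heig D
    rw [show D (g' 0) = algebraMap ℂ A r * g' 0 + (D (g' 0) - algebraMap ℂ A r * g' 0) by ring]
    exact Submodule.add_mem_sup (Ideal.mul_mem_left _ _ (Ideal.subset_span ⟨0, rfl⟩))
      (by simpa [g'] using hr)
  · exact Submodule.mem_sup_right (by simpa using hlow D _ (hg'm 1))

omit [IsDomain A] in
/-- With new generators in degree three, linear parts are scalars. -/
lemma exists_scalar_linearPart (g : Fin 2 → A) (N : ℕ)
    (hR : (coneGrading m).IsReduction (fun l => cl m 1 (g l)) N)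
    (hlow : ∀ D : Derivation ℂ A A, ∀ z ∈ m, D z ∈ m)
    (h3 : ¬ (coneGrading m).piece 3 ≤
      (coneGrading m).pairPiece (cl m 1 (g 0)) (cl m 1 (g 1)) 3) :
    ∀ D : Derivation ℂ A A, ∃ lam : ℂ, ∀ n : ℕ, ∀ z ∈ m ^ n,
      D z - ((n : ℂ) * lam) • z ∈ m ^ (n + 1) := by
  have hEul : ∀ n, ∀ x ∈ (coneGrading m).piece n, eulerDer m x = n • x :=
    fun n x hx => eulerDer_apply m hx
  have hsh : ∀ D : Derivation ℂ A A, ∀ z ∈ m, D z ∈ m ^ (0 + 1) := fun D z hz => by
    simpa using hlow D z hz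
  intro D
  obtain ⟨φ, hφ, -, hφ'⟩ := hR.der_eq (eulerDer m) hEul (shiftDer m D 0 (hsh D)) 1
    (fun n x hx => shiftDer_mem m D 0 (hsh D) hx) le_rfl h3
  obtain ⟨lam, rfl⟩ := (coneGrading m).zero_eq φ hφ
  refine ⟨lam, fun n z hz => ?_⟩
  have h1 := hφ' n (cl m n z) ⟨z, hz, rfl⟩
  rw [shiftDer_cl m D 0 (hsh D) n hz, add_zero, ← Algebra.smul_def,
    ← Nat.cast_smul_eq_nsmul ℂ, smul_smul, ← cl_smul hz,
    cl_eq_iff (by simpa using der_pow_le m D (hsh D) n z hz)
      (by rw [Algebra.smul_def]; exact Ideal.mul_mem_left _ _ hz)] at h1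
  exact h1

omit [IsDomain (Cone m)] [IsIntegrallyClosed (Cone m)] in
/-- A derivation with scalar nonzero linear part, scalar in every degree modulo higher order,
stabilises some parameters. -/
lemma regular_of_scalar (hDer : Module.Projective A (Derivation ℂ A A))
    (hd : ringKrullDim (Localization.AtPrime m) = 2) (g : Fin 2 → A) (hgm : ∀ l, g l ∈ m) (N : ℕ)
    (hred : m ^ (N + 1) ≤ Ideal.span (Set.range g) * m ^ N ⊔ m ^ (N + 2))
    (lam : Derivation ℂ A A → ℂ)
    (hlam : ∀ (D : Derivation ℂ A A) (n : ℕ), ∀ z ∈ m ^ n,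
      D z - ((n : ℂ) * lam D) • z ∈ m ^ (n + 1))
    (D : Derivation ℂ A A) (hD : lam D ≠ 0) : IsRegularLocalRing (Localization.AtPrime m) := by
  have hiter : ∀ k : ℕ, ∃ g' : Fin 2 → A, (∀ l, g' l - g l ∈ m ^ 2) ∧
      ∀ l, D (g' l) - lam D • g' l ∈ m ^ (k + 2) := by
    intro k
    induction k with
    | zero =>
      refine ⟨g, fun l => by rw [sub_self]; exact zero_mem _, fun l => ?_⟩
      simpa using hlam D 1 (g l) (by simpa using hgm l)
    | succ k ih =>
      obtain ⟨g', hg', hDg'⟩ := ih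
      set s : ℂ := -(((k : ℂ) + 1) * lam D)⁻¹
      refine ⟨fun l => g' l + s • (D (g' l) - lam D • g' l), fun l => ?_, fun l => ?_⟩
      · rw [add_sub_right_comm]
        refine add_mem (hg' l) ?_
        rw [Algebra.smul_def]
        exact Ideal.mul_mem_left _ _ (Ideal.pow_le_pow_right (by omega) (hDg' l))
      · set x := D (g' l) - lam D • g' l with hx
        have h1 := hlam D (k + 2) x (hDg' l)
        have hs : ((k : ℂ) + 1) * lam D * s = -1 := by
          simp only [s]
          rw [mul_neg, mul_inv_cancel₀ (mul_ne_zero (Nat.cast_add_one_ne_zero k) hD)]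
        have h2 : D (g' l + s • x) - lam D • (g' l + s • x) =
            s • (D x - (((k + 2 : ℕ) : ℂ) * lam D) • x) := by
          have hDg : D (g' l) = x + lam D • g' l := by rw [hx, sub_add_cancel]
          clear_value x
          rw [map_add, Derivation.map_smul, hDg, smul_add, smul_sub, smul_smul, smul_smul]
          have h3 : (1 : ℂ) + s * (((k + 2 : ℕ) : ℂ) * lam D) = lam D * s := by
            push_cast
            linear_combination hs
          rw [← h3, add_smul, one_smul]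
          abel
        rw [h2, Algebra.smul_def]
        exact Ideal.mul_mem_left _ _ h1
  obtain ⟨g', hg', hDg'⟩ := hiter N
  have hg'm : ∀ l, g' l ∈ m := fun l => by
    have h1 := m.add_mem ((Ideal.pow_le_self two_ne_zero) (hg' l)) (hgm l)
    rwa [sub_add_cancel] at h1
  have hM' : IsLocalRing.maximalIdeal (Localization.AtPrime m) ^ (N + 1) ≤
      (Ideal.span (Set.range g')).map (algebraMap A (Localization.AtPrime m)) := by
    refine pow_le_map m (hred.trans (sup_le ?_ le_sup_right))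
    rw [Ideal.mul_le]
    intro p hp q hq
    have hp' : p ∈ Ideal.span (Set.range g') ⊔ m ^ 2 := by
      refine Ideal.span_le.2 ?_ hp
      rintro _ ⟨i, rfl⟩
      rw [show g i = g' i - (g' i - g i) by ring]
      exact Submodule.sub_mem _ (Submodule.mem_sup_left (Ideal.subset_span ⟨i, rfl⟩))
        (Submodule.mem_sup_right (hg' i))
    obtain ⟨a, ha, b, hb, rfl⟩ := Submodule.mem_sup.1 hp'
    rw [add_mul]
    refine Submodule.add_mem_sup (Ideal.mul_mem_right _ _ ha) ?_
    rw [show N + 1 + 1 = 2 + N by omega, pow_add]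
    exact Ideal.mul_mem_mul hb hq
  refine (stable_parameter_ideal hDer m 2 hd g' (radical_eq_maximalIdeal m hg'm hM') D
    fun l => ?_).2.2 fun z hz => ?_
  · rw [show D (g' l) = lam D • g' l + (D (g' l) - lam D • g' l) by abel, map_add]
    refine add_mem (Ideal.mem_map_of_mem _ ?_) (hM' ?_)
    · rw [Algebra.smul_def]
      exact Ideal.mul_mem_left _ _ (Ideal.subset_span ⟨l, rfl⟩)
    · rw [← Localization.AtPrime.map_eq_maximalIdeal, ← Ideal.map_pow]
      exact Ideal.mem_map_of_mem _ (Ideal.pow_le_pow_right (by omega) (hDg' l))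
  · have h1 : D z - lam D • z ∈ m ^ 2 := by simpa using hlam D 1 z (by simpa using hz)
    rw [show z = (lam D)⁻¹ • D z - (lam D)⁻¹ • (D z - lam D • z) by
      rw [smul_sub, smul_smul, inv_mul_cancel₀ hD, one_smul, sub_sub_cancel]]
    refine Submodule.sub_mem _ (Submodule.mem_sup_left ?_) (Submodule.mem_sup_right ?_)
    · rw [Algebra.smul_def]
      exact Ideal.mul_mem_left _ _ (Ideal.subset_span ⟨z, hz, rfl⟩)
    · rw [Algebra.smul_def]
      exact Ideal.mul_mem_left _ _ h1

/-- Derivations with vanishing linear parts contradict a reduction number at most five. -/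
lemma false_of_linearPart_eq_zero
    (hDer : Module.Projective A (Derivation ℂ A A))
    (hd : ringKrullDim (Localization.AtPrime m) = 2) (g : Fin 2 → A) (hgm : ∀ l, g l ∈ m) (N : ℕ)
    (hR : (coneGrading m).IsReduction (fun l => cl m 1 (g l)) N)
    (hred : m ^ (N + 1) ≤ Ideal.span (Set.range g) * m ^ N ⊔ m ^ (N + 2)) (hN5 : N ≤ 5)
    (hm2 : ∀ D : Derivation ℂ A A, ∀ z ∈ m, D z ∈ m ^ (1 + 1)) : False := by
  have hEul : ∀ n, ∀ x ∈ (coneGrading m).piece n, eulerDer m x = n • x :=
    fun n x hx => eulerDer_apply m hx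
  have hgq : ∀ l, g l ∈ Ideal.span (Set.range g) := fun l => Ideal.subset_span ⟨l, rfl⟩
  by_cases h4 : (coneGrading m).piece 4 ≤
      (coneGrading m).pairPiece (cl m 1 (g 0)) (cl m 1 (g 1)) 4
  · exact false_of_orders m hDer hd g hgm (a := 2) (b := 2) le_rfl
      (pow_le_map m (pow_le_of_pairPiece m g hgm 3 h4))
      (fun D => Submodule.mem_sup_right (hm2 D _ (hgm 0)))
      fun D => Submodule.mem_sup_right (hm2 D _ (hgm 1))
  have hrow : ∀ (D : Derivation ℂ A A) l, D (g l) ∈ Ideal.span (Set.range g) ⊔ m ^ 3 := by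
    intro D l
    obtain ⟨φ, hφ, -, hφ'⟩ := hR.der_eq (eulerDer m) hEul (shiftDer m D 1 (hm2 D)) 2
      (fun n x hx => shiftDer_mem m D 1 (hm2 D) hx) le_rfl h4
    obtain ⟨σ, hσ, rfl⟩ := hφ
    have hg1 : g l ∈ m ^ 1 := by simpa using hgm l
    have hσg : σ * g l ∈ m ^ (1 + 1) := by
      rw [pow_add]
      exact Ideal.mul_mem_mul hσ hg1
    have h1 := hφ' 1 (cl m 1 (g l)) ⟨g l, hg1, rfl⟩
    rw [shiftDer_cl m D 1 (hm2 D) 1 hg1, one_smul, cl_mul hσ hg1,
      cl_eq_iff (hm2 D _ (hgm l)) hσg] at h1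
    rw [show D (g l) = σ * g l + (D (g l) - σ * g l) by ring]
    exact Submodule.add_mem_sup (Ideal.mul_mem_left _ _ (hgq l)) h1
  have hle : m ^ (N + 1) ≤ Ideal.span (Set.range g) ⊔ m ^ (N + 1 + 1) := by
    rw [show N + 1 + 1 = N + 2 from rfl]
    refine hred.trans (sup_le ?_ le_sup_right)
    exact le_trans Ideal.mul_le_left le_sup_left
  exact false_of_orders m hDer hd g hgm (n := N + 1) (a := 3) (b := 3) (by omega)
    (pow_le_map m hle) (fun D => hrow D 0) fun D => hrow D 1

/-- A surface with projective derivations is regular at a point with normal tangent cone, if the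
reduction number is at most five or some derivation has a nonzero linear part. -/
theorem regular_of_normal_cone (hDer : Module.Projective A (Derivation ℂ A A))
    (hd : ringKrullDim (Localization.AtPrime m) = 2) (g : Fin 2 → A) (hgm : ∀ l, g l ∈ m) (N : ℕ)
    (hred : m ^ (N + 1) ≤ Ideal.span (Set.range g) * m ^ N ⊔ m ^ (N + 2))
    (hN : N ≤ 5 ∨ ∃ D : Derivation ℂ A A, ∃ z ∈ m, D z ∉ m ^ 2) :
    IsRegularLocalRing (Localization.AtPrime m) := by
  have hR := isReduction_coneGrading m hd g hgm N hred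
  by_cases hlow : ∃ D : Derivation ℂ A A, ∃ z ∈ m, D z ∉ m
  · obtain ⟨D, z, hz, hDz⟩ := hlow
    exact regular_of_lower m hd g hgm N hR D hz hDz
  push Not at hlow
  by_cases h3 : (coneGrading m).piece 3 ≤
      (coneGrading m).pairPiece (cl m 1 (g 0)) (cl m 1 (g 1)) 3
  · exact (false_of_piece_three m hDer hd g hgm N hR hlow h3).elim
  choose lam hlam using exists_scalar_linearPart m g N hR hlow h3
  by_cases hex : ∃ D, lam D ≠ 0
  · obtain ⟨D, hD⟩ := hex
    exact regular_of_scalar m hDer hd g hgm N hred lam hlam D hD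
  push Not at hex
  have hm2 : ∀ D : Derivation ℂ A A, ∀ z ∈ m, D z ∈ m ^ (1 + 1) := fun D z hz => by
    simpa [hex D] using hlam D 1 z (by simpa using hz)
  exact (false_of_linearPart_eq_zero m hDer hd g hgm N hR hred
    (hN.resolve_right fun ⟨D, z, hz, hDz⟩ => hDz (hm2 D z hz)) hm2).elim

end Vale.Agent.P266
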